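import Vale.Agent.P252.Rigidity.General.Rho.Basic
import Vale.Agent.P252.Rigidity.General.AssemblyLow

/-!
# The assembly for the cut-off by the affine support function

The flux is supported in the compact set `ρ ≤ L`.  As `L → ∞` the cut-off error is dominated by the
integrable weight and tends to zero; what remains is `h^(-deg/2)` times the mass of the weight.
-/

namespace Vale.Agent.P252.General.Rho

open scoped ContDiff Matrix Topology
open MeasureTheory Set Filter Finset Rigidity
open Three (AM qQ logDet)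

noncomputable section

variable {n : ℕ} {W : Set (Fin n → ℝ)} {u : (Fin n → ℝ) → ℝ} {x₀ p : Fin n → ℝ} {h : ℝ}

/-- `(A + B)^d ≤ 2^d (A^d + B^d)`. -/
lemma add_rpow_le_two {A B d : ℝ} (hA : 0 ≤ A) (hB : 0 ≤ B) (hd : 0 ≤ d) :
    (A + B) ^ d ≤ 2 ^ d * (A ^ d + B ^ d) := by
  have hm : 0 ≤ max A B := le_max_of_le_left hA
  calc (A + B) ^ d ≤ (2 * max A B) ^ d :=
        Real.rpow_le_rpow (by linarith) (by linarith [le_max_left A B, le_max_right A B]) hd
    _ = 2 ^ d * max A B ^ d := Real.mul_rpow zero_le_two hm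
    _ ≤ 2 ^ d * (A ^ d + B ^ d) := by
        refine mul_le_mul_of_nonneg_left ?_ (by positivity)
        rcases le_total A B with hle | hle
        · rw [max_eq_right hle]; linarith [Real.rpow_nonneg hA d]
        · rw [max_eq_left hle]; linarith [Real.rpow_nonneg hB d]

/-- The pointwise bound of the cut-off error. -/
lemma cutoff_error_le {a : ℕ} {d η P L h : ℝ} (hd : 0 ≤ d) (hη : 0 < η) (hη1 : η ≤ 1)
    (hP : 0 ≤ P) (hL : 0 < L) (hh : 0 < h) :
    η ^ a * (P / (L * η) + h⁻¹) ^ d ≤
      2 ^ d * (η ^ ((a : ℝ) - d) * (P / L) ^ d + h⁻¹ ^ d) := by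
  have hB : 0 ≤ h⁻¹ := by positivity
  refine (mul_le_mul_of_nonneg_left (add_rpow_le_two (by positivity) hB hd)
    (by positivity)).trans ?_
  have e : η ^ a * (P / (L * η)) ^ d = η ^ ((a : ℝ) - d) * (P / L) ^ d := by
    rw [← div_div, Real.div_rpow (by positivity) hη.le, Real.rpow_sub hη, Real.rpow_natCast]
    ring
  have h2 : η ^ a * h⁻¹ ^ d ≤ h⁻¹ ^ d :=
    mul_le_of_le_one_left (Real.rpow_nonneg hB d) (pow_le_one₀ hη.le hη1)
  calc η ^ a * (2 ^ d * ((P / (L * η)) ^ d + h⁻¹ ^ d))
      = 2 ^ d * (η ^ a * (P / (L * η)) ^ d + η ^ a * h⁻¹ ^ d) := by ring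
    _ ≤ _ := by
        rw [e]
        gcongr

variable {a : ℕ} {β cc N b q deg : ℝ}

/-- The weighted inequality after the two limits in the cut-off. -/
theorem weight_integral_le (hn : 0 < n) (hdeg : 0 < deg) (ha : deg / 2 < (a : ℝ))
    (hF : RhoFlux n a cc N b q deg) :
    ∃ ε C : ℝ, 0 < ε ∧ 0 ≤ C ∧ ∀ {W : Set (Fin n → ℝ)} {u : (Fin n → ℝ) → ℝ}, AM W u →
      Convex ℝ W → ∀ x₀ ∈ W, ∀ (p : Fin n → ℝ) (h : ℝ), 0 < h →
        (∀ y ∈ W, 1 ≤ cc + capFun u x₀ p y / h) →
        (∀ L : ℝ, IsCompact {y | y ∈ W ∧ rhoF u x₀ y ≤ L}) →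
        IntegrableOn (weight u x₀ p h cc N b q) W →
        ∀ r : ℝ, 0 < r → Metric.closedBall x₀ r ⊆ W →
          ε * ∫ y in Metric.closedBall x₀ r,
              weight u x₀ p h cc N b q y * qQ u y ^ (deg / 2) ≤
            C * h⁻¹ ^ (deg / 2) * ∫ y in W, weight u x₀ p h cc N b q y := by
  obtain ⟨ε, C, hε, hC, hI⟩ := hF
  set d := deg / 2 with hd
  have hd0 : 0 < d := by positivity
  set C' := C * 2 ^ d with hC'
  refine ⟨ε * (1 / 2) ^ a, C', by positivity, by positivity, ?_⟩
  intro W u hu hc x₀ hx₀ p h hh hcc hcpt hwI r hr hball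
  have hW := hu.isOpen
  set w := weight u x₀ p h cc N b q with hw
  have hwc : ContinuousOn w W := continuousOn_weight hu hc hh hx₀ hcc
  have hw0 : ∀ y ∈ W, 0 ≤ w y := fun y hy => weight_nonneg hu hc hh hx₀ hcc hy
  set R := rhoF u x₀ with hR
  have hRc : ContinuousOn R W := continuousOn_rhoF hu
  have hR0 : ∀ y ∈ W, 0 ≤ R y := fun y hy => rhoF_nonneg hu hc hx₀ hy
  set Q := fun y => qQ u y ^ d with hQ
  have hQc : ContinuousOn Q W :=
    hu.sm_qQ.continuousOn.rpow_const fun _ _ => Or.inr hd0.le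
  have hQ0 : ∀ y ∈ W, 0 ≤ Q y := fun y hy => Real.rpow_nonneg (hu.qQ_nonneg hy) _
  set B := Metric.closedBall x₀ r
  have hBc : IsCompact B := isCompact_closedBall x₀ r
  obtain ⟨M₁, hM₁⟩ := hBc.exists_bound_of_continuousOn (hRc.mono hball)
  obtain ⟨M₂, hM₂⟩ := hBc.exists_bound_of_continuousOn
    (((continuousOn_pInv hu).rpow_const fun _ _ => Or.inr hd0.le).mono hball)
  obtain ⟨δ, hδ, hlb⟩ := exists_psi0_lb hn hu hc hx₀ hr hball
  simp only [Real.norm_eq_abs] at hM₁ hM₂
  -- the error term of the cut-off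
  set E : ℝ → (Fin n → ℝ) → ℝ := fun L y =>
    w y * (max (1 - R y / L) 0 ^ ((a : ℝ) - d) * (pInv u y / L) ^ d) with hE
  have key : ∀ L : ℝ, 1 ≤ L → 2 * M₁ ≤ L →
      ε * (1 / 2) ^ a * ∫ y in B, w y * Q y ≤
        C' * (∫ y in W, E L y) + C' * h⁻¹ ^ d * ∫ y in W, w y := by
    intro L hL1 hLM
    have hL : 0 < L := lt_of_lt_of_le one_pos hL1
    obtain ⟨Φ, hΦs, hΦ0, hΦ⟩ := hI hu hc x₀ hx₀ p h hh hcc L hL
    set η := fun y => max (1 - R y / L) 0 with hη
    have hηc : ContinuousOn η W := (continuousOn_const.sub (hRc.div_const L)).sup continuousOn_const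
    have hη0 : ∀ y, 0 ≤ η y := fun y => le_max_right _ _
    set K := {y | y ∈ W ∧ R y ≤ L} with hK
    have hKc : IsCompact K := hcpt L
    have hKW : K ⊆ W := fun y hy => hy.1
    have hout : ∀ y ∈ W, y ∉ K → η y = 0 := fun y hy hyK => by
      have : L < R y := not_le.1 fun hle => hyK ⟨hy, hle⟩
      simp only [η]
      exact max_eq_right (by rw [sub_nonpos, one_le_div hL]; exact this.le)
    have hexp : 0 < (a : ℝ) - d := by linarith
    have ha0 : a ≠ 0 := by
      rintro rfl
      simp only [Nat.cast_zero] at ha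
      linarith
    set g := fun y => η y ^ a * w y * Q y with hg
    set k := fun y => η y ^ a * w y with hk
    set D := fun y => ∑ i, pd i (Φ i) y with hD
    have hgc : ContinuousOn g W := ((hηc.pow a).mul hwc).mul hQc
    have hEc : ContinuousOn (E L) W :=
      hwc.mul ((hηc.rpow_const fun _ _ => Or.inr hexp.le).mul
        (((continuousOn_pInv hu).div_const L).rpow_const fun _ _ => Or.inr hd0.le))
    have hDc : ContinuousOn D W := continuousOn_finsetSum _ fun i _ => continuousOn_pd hW (hΦs i) i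
    have hΦK : ∀ i, ∀ y ∈ W, y ∉ K → Φ i y = 0 := fun i y hy hyK =>
      hΦ0 i y hy (not_le.1 fun hle => hyK ⟨hy, hle⟩).le
    have hgI : IntegrableOn g W := integrableOn_of_vanish hW hKc hKW hgc fun y hy hyK => by
      simp [g, hout y hy hyK, zero_pow ha0]
    have hEI : IntegrableOn (E L) W := integrableOn_of_vanish hW hKc hKW hEc fun y hy hyK => by
      have := hout y hy hyK
      simp only [η] at this
      simp [E, this, Real.zero_rpow hexp.ne']
    have hDI : IntegrableOn D W := integrableOn_of_vanish hW hKc hKW hDc fun y hy hyK =>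
      Finset.sum_eq_zero fun i _ => pd_eq_zero_of_notMem hW hKc (hΦK i) i hy hyK
    set G := fun y => ε * g y - C' * E L y - C' * h⁻¹ ^ d * w y with hG
    -- the inequality holds on the whole domain
    have hGc : ContinuousOn G W :=
      ((continuousOn_const.mul hgc).sub (continuousOn_const.mul hEc)).sub
        (continuousOn_const.mul hwc)
    have hlt : ∀ y ∈ W, R y < L → G y ≤ D y := by
      intro y hy hyL
      have hη' : 0 < 1 - R y / L := by rw [sub_pos, div_lt_one hL]; exact hyL
      have hη1 : 1 - R y / L ≤ 1 := by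
        have := div_nonneg (hR0 y hy) hL.le
        linarith
      have e : L - R y = L * (1 - R y / L) := by field_simp
      have h1 := hΦ y hy hyL
      rw [← hR, e, ← hw] at h1
      have h2 := cutoff_error_le (a := a) (h := h) hd0.le hη' hη1 (pInv_pos hu hy).le hL hh
      have h3 := mul_le_mul_of_nonneg_left h2 (mul_nonneg hC (hw0 y hy))
      simp only [G, g, E, η, max_eq_left hη'.le, C', Q]
      nlinarith
    have hpt : ∀ y ∈ W, G y ≤ D y := by
      intro y hy
      set S := W ∩ R ⁻¹' Set.Iio L with hS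
      by_cases hcl : y ∈ closure S
      · exact ((hGc y hy).mono Set.inter_subset_left).closure_le hcl
          ((hDc y hy).mono Set.inter_subset_left) fun z hz => hlt z hz.1 hz.2
      · have hnhds : ∀ᶠ z in 𝓝 y, z ∈ W ∧ z ∉ S := by
          filter_upwards [hW.mem_nhds hy, isClosed_closure.isOpen_compl.mem_nhds hcl] with z h1 h2
          exact ⟨h1, fun hz => h2 (subset_closure hz)⟩
        have hyR : L ≤ R y := not_lt.1 fun hyL => hcl (subset_closure ⟨hy, hyL⟩)
        have hD0 : D y = 0 := Finset.sum_eq_zero fun i _ => by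
          have : Φ i =ᶠ[𝓝 y] fun _ => (0 : ℝ) :=
            hnhds.mono fun z hz => hΦ0 i z hz.1 (not_lt.1 fun hzL => hz.2 ⟨hz.1, hzL⟩)
          rw [pd, this.fderiv_eq]
          simp
        have hη' : η y = 0 := by
          simp only [η]
          exact max_eq_right (by rw [sub_nonpos, one_le_div hL]; exact hyR)
        have hE' : E L y = 0 := by
          simp only [η] at hη'
          simp [E, hη', Real.zero_rpow hexp.ne']
        have hg' : g y = 0 := by simp [g, hη', zero_pow ha0]
        rw [hD0]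
        simp only [G, hE', hg', mul_zero, sub_zero, zero_sub, neg_nonpos]
        exact mul_nonneg (by positivity) (hw0 y hy)
    have hdiv : ∫ y in W, D y = 0 := setIntegral_div_eq_zero hW hKc hKW hΦs hΦK
    have h1 : ∫ y in W, G y ≤ 0 := hdiv ▸
      setIntegral_mono_on (((hgI.const_mul _).sub (hEI.const_mul _)).sub (hwI.const_mul _)) hDI
        hW.measurableSet hpt
    simp only [G] at h1
    have i1 : IntegrableOn (fun y => ε * g y - C' * E L y) W :=
      (hgI.const_mul ε).sub (hEI.const_mul C')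
    rw [integral_sub i1 (hwI.const_mul _),
      integral_sub (hgI.const_mul _) (hEI.const_mul _), integral_const_mul, integral_const_mul,
      integral_const_mul] at h1
    have hfI : IntegrableOn (fun y => w y * Q y) B :=
      ((hwc.mul hQc).mono hball).integrableOn_compact hBc
    have h2 : (1 / 2) ^ a * ∫ y in B, w y * Q y ≤ ∫ y in W, g y := by
      rw [← integral_const_mul]
      refine (setIntegral_mono_on (hfI.const_mul _) (hgI.mono_set hball) measurableSet_closedBall
        fun y hy => ?_).trans (setIntegral_mono_set hgI ((ae_restrict_mem hW.measurableSet).mono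
          fun y hy => mul_nonneg (mul_nonneg (pow_nonneg (hη0 y) a) (hw0 y hy)) (hQ0 y hy))
            hball.eventuallyLE)
      have e1 : (1 / 2 : ℝ) ≤ η y := by
        refine le_trans ?_ (le_max_left _ _)
        have : R y / L ≤ 1 / 2 := by
          rw [div_le_iff₀ hL]
          linarith [le_abs_self (R y), hM₁ y hy]
        linarith
      calc (1 / 2) ^ a * (w y * Q y) ≤ η y ^ a * (w y * Q y) :=
            mul_le_mul_of_nonneg_right (pow_le_pow_left₀ (by norm_num) e1 a)
              (mul_nonneg (hw0 y (hball hy)) (hQ0 y (hball hy)))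
        _ = g y := by simp only [g]; ring
    have h3 := mul_le_mul_of_nonneg_left h2 hε.le
    rw [← mul_assoc] at h3
    linarith
  -- the cut-off error tends to zero
  set Bd := max M₂ ((1 / δ) ^ d) with hBd
  have hlim : Tendsto (fun L : ℝ => ∫ y in W, E L y) atTop (𝓝 0) := by
    have h0 : (∫ _y in W, (0 : ℝ)) = 0 := integral_zero _ _
    rw [← h0]
    refine tendsto_integral_filter_of_dominated_convergence (fun y => w y * Bd) ?_ ?_
      (hwI.mul_const _) ?_
    · filter_upwards [eventually_gt_atTop (0 : ℝ)] with L hL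
      refine (hwc.mul ((((continuousOn_const.sub (hRc.div_const L)).sup
        continuousOn_const).rpow_const fun _ _ => Or.inr (by linarith)).mul
          (((continuousOn_pInv hu).div_const L).rpow_const fun _ _ =>
            Or.inr hd0.le))).aestronglyMeasurable hW.measurableSet
    · filter_upwards [eventually_ge_atTop (1 : ℝ)] with L hL1
      have hL : 0 < L := lt_of_lt_of_le one_pos hL1
      filter_upwards [ae_restrict_mem hW.measurableSet] with y hy
      have hP := pInv_pos hu hy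
      have hPd : 0 ≤ (pInv u y / L) ^ d := Real.rpow_nonneg (by positivity) _
      rw [Real.norm_eq_abs, abs_of_nonneg (mul_nonneg (hw0 y hy)
        (mul_nonneg (Real.rpow_nonneg (le_max_right _ _) _) hPd))]
      refine mul_le_mul_of_nonneg_left ?_ (hw0 y hy)
      have hη1 : max (1 - R y / L) 0 ≤ 1 :=
        max_le (by linarith [div_nonneg (hR0 y hy) hL.le]) zero_le_one
      rcases le_or_gt L (R y) with hge | hlt
      · rw [max_eq_right (by rw [sub_nonpos, one_le_div hL]; exact hge),
          Real.zero_rpow (by linarith), zero_mul]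
        exact le_max_of_le_right (by positivity)
      · refine (mul_le_of_le_one_left hPd (Real.rpow_le_one (le_max_right _ _) hη1
          (by linarith))).trans ?_
        rcases le_or_gt ‖y - x₀‖ r with hyr | hyr
        · refine le_max_of_le_left ((Real.rpow_le_rpow (by positivity) (div_le_self hP.le hL1)
            hd0.le).trans ((le_abs_self _).trans (hM₂ y ?_)))
          rw [Metric.mem_closedBall, dist_eq_norm]; exact hyr
        · refine le_max_of_le_right (Real.rpow_le_rpow (by positivity) ?_ hd0.le)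
          rw [div_le_div_iff₀ hL hδ, one_mul]
          calc pInv u y * δ ≤ pInv u y * psi0 u x₀ y :=
                mul_le_mul_of_nonneg_left (hlb y hy hyr) hP.le
            _ ≤ L := hlt.le
    · filter_upwards [ae_restrict_mem hW.measurableSet] with y hy
      have h1 : Tendsto (fun L : ℝ => pInv u y / L) atTop (𝓝 0) :=
        tendsto_const_nhds.div_atTop tendsto_id
      have h2 : Tendsto (fun L : ℝ => max (1 - R y / L) 0 ^ ((a : ℝ) - d)) atTop (𝓝 1) := by
        have hr' : Tendsto (fun L : ℝ => R y / L) atTop (𝓝 0) :=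
          tendsto_const_nhds.div_atTop tendsto_id
        simpa using ((hr'.const_sub 1).max (tendsto_const_nhds (x := (0 : ℝ)))).rpow_const
          (Or.inr (by linarith : (0 : ℝ) ≤ (a : ℝ) - d))
      have h3 : Tendsto (fun L : ℝ => (pInv u y / L) ^ d) atTop (𝓝 0) := by
        simpa [Real.zero_rpow hd0.ne'] using h1.rpow_const (Or.inr hd0.le)
      simpa using (h2.mul h3).const_mul (w y)
  have hfin : Tendsto (fun L : ℝ => C' * (∫ y in W, E L y) + C' * h⁻¹ ^ d * ∫ y in W, w y) atTop
      (𝓝 (C' * h⁻¹ ^ d * ∫ y in W, w y)) := by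
    simpa using (hlim.const_mul C').add_const (C' * h⁻¹ ^ d * ∫ y in W, w y)
  exact ge_of_tendsto hfin (((eventually_ge_atTop (1 : ℝ)).and
    (eventually_ge_atTop (2 * M₁))).mono fun L hL => key L hL.1 hL.2)

/-- `D log det D²u` vanishes. -/
theorem qQ_eq_zero (hn : 0 < n) (hdn : (n : ℝ) < deg) (ha : deg / 2 < (a : ℝ)) (hβ : 0 < β)
    (hcc : 1 + β⁻¹ ≤ cc) (hN : 0 ≤ N) (hb : 0 ≤ b) (hq : q ≤ 1 / 2)
    (hF : RhoFlux n a cc N b q deg) (hcap : CapExists n β) (hV : VolumeBound n β)
    (hP : RhoProper n β) (hM : RhoMass n β cc N b q) (hu : AM W u) (hc : Convex ℝ W)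
    (hcl : ∀ R, IsClosed {x | x ∈ W ∧ u x ≤ R}) (h0 : x₀ ∈ W) : qQ u x₀ = 0 := by
  have hdeg : 0 < deg := lt_of_le_of_lt n.cast_nonneg hdn
  obtain ⟨ε, C, hε, hC, hI⟩ := weight_integral_le hn hdeg ha hF
  obtain ⟨C₂, hC₂, hM⟩ := hM
  obtain ⟨C₃, hC₃, hV⟩ := hV
  obtain ⟨r, h₁, c, hr, hh₁, -, hU⟩ := cap_uniform hβ hu h0
  have hW := hu.isOpen
  obtain ⟨p₁, hp₁⟩ := hcap hu hc hcl x₀ h0 h₁ hh₁
  have hBW : Metric.closedBall x₀ r ⊆ W := fun y hy => ((hU h₁ le_rfl p₁ hp₁).2 y hy).1.1
  set B := Metric.closedBall x₀ r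
  have hBc : IsCompact B := isCompact_closedBall x₀ r
  obtain ⟨M, hM'⟩ := hBc.exists_bound_of_continuousOn ((continuousOn_psi0 (x₀ := x₀) hu).mono hBW)
  simp only [Real.norm_eq_abs] at hM'
  set f : (Fin n → ℝ) → ℝ := fun y => (hess u y).det ^ q * qQ u y ^ (deg / 2)
  have hfnn : ∀ y ∈ W, 0 ≤ f y := fun y hy =>
    mul_nonneg (Real.rpow_nonneg (hu.det_pos hy).le _) (Real.rpow_nonneg (hu.qQ_nonneg hy) _)
  have hfc : ContinuousOn f W :=
    (continuousOn_det_rpow hu q).mul
      (hu.sm_qQ.continuousOn.rpow_const fun _ _ => Or.inr (by positivity))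
  have hfI : IntegrableOn f B := (hfc.mono hBW).integrableOn_compact hBc
  set I := ∫ y in B, f y
  set M₀ := 2 + |M| with hM₀
  set cw := (cc + 1) ^ (-N) * M₀ ^ (-b) with hcw
  have hcc0 : 0 < cc + 1 := by linarith [inv_pos.2 hβ]
  have hcw0 : 0 < cw := mul_pos (Real.rpow_pos_of_pos hcc0 _)
    (Real.rpow_pos_of_pos (by positivity) _)
  set d0 := (hess u x₀).det with hd0
  have hd0pos : 0 < d0 := hu.det_pos h0
  set A := C * (C₂ * Real.sqrt (C₃ / d0) ^ (1 - 2 * q)) with hA'
  have hA : ∀ h, max h₁ 1 ≤ h → ε * cw * I ≤ A * h ^ (-(deg / 2 - (n : ℝ) / 2)) := by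
    intro h hh12
    have hh1 : h₁ ≤ h := (le_max_left _ _).trans hh12
    have hone : 1 ≤ h := (le_max_right _ _).trans hh12
    have hh : 0 < h := hh₁.trans_le hh1
    obtain ⟨p, hp⟩ := hcap hu hc hcl x₀ h0 h hh
    obtain ⟨-, hball⟩ := hU h hh1 p hp
    have hccw : ∀ y ∈ W, 1 ≤ cc + capFun u x₀ p y / h := fun y hy => by
      linarith [capFun_lb hu hc hh hβ hp hy]
    obtain ⟨hwI, hwB⟩ := hM hu hc x₀ h0 p h hh hp
    have hmain := hI hu hc x₀ h0 p h hh hccw (hP hu hc hcl x₀ h0 p h hh hp) hwI r hr hBW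
    have hlow : cw * I ≤ ∫ y in B, weight u x₀ p h cc N b q y * qQ u y ^ (deg / 2) := by
      rw [← integral_const_mul]
      refine setIntegral_mono_on (hfI.const_mul _)
        ((((continuousOn_weight hu hc hh h0 hccw).mul (hu.sm_qQ.continuousOn.rpow_const
          fun _ _ => Or.inr (by positivity))).mono hBW).integrableOn_compact hBc)
        measurableSet_closedBall fun y hy => ?_
      have hyW := hBW hy
      have h1 : cc + capFun u x₀ p y / h ≤ cc + 1 := by
        have := (div_le_one hh).2 (hball y hy).1.2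
        linarith
      have h2 : psiF u x₀ p h y ≤ M₀ := by
        rw [psiF_eq hu hyW]
        have e1 : psi0 u x₀ y / h ≤ psi0 u x₀ y :=
          div_le_self (psi0_nonneg hu hc h0 hyW) hone
        linarith [le_abs_self (psi0 u x₀ y), hM' y hy, le_abs_self M]
      have e2 : (cc + 1) ^ (-N) ≤ (cc + capFun u x₀ p y / h) ^ (-N) :=
        Real.rpow_le_rpow_of_nonpos (lt_of_lt_of_le one_pos (hccw y hyW)) h1 (by linarith)
      have e3 : M₀ ^ (-b) ≤ psiF u x₀ p h y ^ (-b) :=
        Real.rpow_le_rpow_of_nonpos (lt_of_lt_of_le one_pos (one_le_psi hu hc hh h0 hyW)) h2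
          (by linarith)
      calc cw * f y ≤ (cc + capFun u x₀ p y / h) ^ (-N) * psiF u x₀ p h y ^ (-b) * f y :=
            mul_le_mul_of_nonneg_right (mul_le_mul e2 e3 (Real.rpow_nonneg (by positivity) _)
              (Real.rpow_nonneg (by linarith [hccw y hyW]) _)) (hfnn y hyW)
        _ = _ := by simp only [f, weight]; ring
    set V := (volume (capSet u x₀ p h W)).toReal
    have hV0 : 0 ≤ V := ENNReal.toReal_nonneg
    have hV1 : V ≤ Real.sqrt (C₃ / d0) * h ^ ((n : ℝ) / 2) := by
      have h1 : V ^ 2 ≤ C₃ / d0 * h ^ n := by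
        rw [div_mul_eq_mul_div, le_div_iff₀ hd0pos, mul_comm]
        exact hV hu hc x₀ h0 p h hh hp
      have h2 : Real.sqrt (C₃ / d0) * h ^ ((n : ℝ) / 2) = Real.sqrt (C₃ / d0 * h ^ n) := by
        rw [Real.sqrt_mul (div_nonneg hC₃ hd0pos.le), Real.sqrt_eq_rpow (h ^ n),
          ← Real.rpow_natCast h n, ← Real.rpow_mul hh.le]
        ring_nf
      rw [h2]
      exact Real.le_sqrt_of_sq_le h1
    have hmass : ∫ y in W, weight u x₀ p h cc N b q y ≤
        C₂ * Real.sqrt (C₃ / d0) ^ (1 - 2 * q) * h ^ ((n : ℝ) / 2) := by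
      refine hwB.trans ?_
      calc C₂ * h ^ ((n : ℝ) * q) * V ^ (1 - 2 * q)
          ≤ C₂ * h ^ ((n : ℝ) * q) * (Real.sqrt (C₃ / d0) * h ^ ((n : ℝ) / 2)) ^ (1 - 2 * q) :=
            mul_le_mul_of_nonneg_left (Real.rpow_le_rpow hV0 hV1 (by linarith))
              (mul_nonneg hC₂ (Real.rpow_nonneg hh.le _))
        _ = _ := by
            rw [Real.mul_rpow (Real.sqrt_nonneg _) (Real.rpow_nonneg hh.le _),
              ← Real.rpow_mul hh.le,
              show (n : ℝ) / 2 = (n : ℝ) * q + (n : ℝ) / 2 * (1 - 2 * q) by ring,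
              Real.rpow_add hh]
            ring_nf
    calc ε * cw * I ≤ ε * ∫ y in B, weight u x₀ p h cc N b q y * qQ u y ^ (deg / 2) := by
          rw [mul_assoc]; exact mul_le_mul_of_nonneg_left hlow hε.le
      _ ≤ C * h⁻¹ ^ (deg / 2) * ∫ y in W, weight u x₀ p h cc N b q y := hmain
      _ ≤ C * h⁻¹ ^ (deg / 2) *
          (C₂ * Real.sqrt (C₃ / d0) ^ (1 - 2 * q) * h ^ ((n : ℝ) / 2)) :=
          mul_le_mul_of_nonneg_left hmass (by positivity)
      _ = A * h ^ (-(deg / 2 - (n : ℝ) / 2)) := by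
          rw [show -(deg / 2 - (n : ℝ) / 2) = -(deg / 2) + (n : ℝ) / 2 by ring, Real.rpow_add hh,
            Real.rpow_neg hh.le, Real.inv_rpow hh.le]
          simp only [A]
          ring
  have hI0 : I ≤ 0 := by
    have hlim : Tendsto (fun h : ℝ => A * h ^ (-(deg / 2 - (n : ℝ) / 2))) atTop (𝓝 0) := by
      simpa using (tendsto_rpow_neg_atTop
        (show 0 < deg / 2 - (n : ℝ) / 2 by linarith)).const_mul A
    have := ge_of_tendsto hlim ((eventually_ge_atTop (max h₁ 1)).mono hA)
    exact nonpos_of_mul_nonpos_right this (by positivity)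
  by_contra hne
  have hpos : 0 < f x₀ := mul_pos (Real.rpow_pos_of_pos hd0pos _)
    (Real.rpow_pos_of_pos ((hu.qQ_nonneg h0).lt_of_ne' hne) _)
  obtain ⟨σ, hσ, hsball⟩ := Metric.mem_nhds_iff.1 (Filter.inter_mem
    (Metric.closedBall_mem_nhds x₀ hr)
    ((hfc.continuousAt (hW.mem_nhds h0)).eventually_const_le (half_lt_self hpos)))
  have hsub : Metric.ball x₀ σ ⊆ B := fun y hy => (hsball hy).1
  have h4 := setIntegral_mono_on (μ := volume) (f := fun _ => f x₀ / 2)
    (integrableOn_const measure_ball_lt_top.ne) (hfI.mono_set hsub) measurableSet_ball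
    fun y hy => (hsball hy).2
  have h5 := setIntegral_mono_set hfI ((ae_restrict_mem measurableSet_closedBall).mono
    fun y hy => hfnn y (hBW hy)) hsub.eventuallyLE
  rw [setIntegral_const, smul_eq_mul] at h4
  have h6 : 0 < volume.real (Metric.ball x₀ σ) * (f x₀ / 2) :=
    mul_pos (ENNReal.toReal_pos (Metric.measure_ball_pos volume x₀ hσ).ne' measure_ball_lt_top.ne)
      (by positivity)
  linarith

/-- The assembly. -/
theorem rhoAssembly (n : ℕ) : RhoAssemblyGoal n := by
  intro a β cc N b q deg hn hdn ha hβ hcc hN hb _hq0 hq hF hcap hV hP hM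
  exact rigid_of_qQ_eq_zero hn fun {W u} hu hc hcl y hy =>
    qQ_eq_zero hn hdn ha hβ hcc hN hb hq hF hcap hV hP hM hu hc hcl hy

end

end Vale.Agent.P252.General.Rho
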