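import Vale.Agent.P252.Rigidity.General.Rho.Spec
import Vale.Agent.P252.Rigidity.General.Mass.Basic
import Vale.Agent.P252.Rigidity.Three.Glue

/-!
# Elementary facts on the affine support function and the weight
-/

namespace Vale.Agent.P252.General.Rho

open scoped ContDiff Matrix Topology
open MeasureTheory Set Filter Finset Rigidity
open Three (AM)

noncomputable section

variable {n : ℕ} {W : Set (Fin n → ℝ)} {u : (Fin n → ℝ) → ℝ} {x₀ p : Fin n → ℝ} {h β : ℝ}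

lemma psi0_eq_gap (u : (Fin n → ℝ) → ℝ) (x₀ y : Fin n → ℝ) :
    psi0 u x₀ y = tangentGap u y x₀ := by
  simp only [psi0, tangentGap]
  rw [show x₀ - y = -(y - x₀) by abel, map_neg]
  ring

lemma psi0_nonneg (hu : AM W u) (hc : Convex ℝ W) (h0 : x₀ ∈ W) {y : Fin n → ℝ} (hy : y ∈ W) :
    0 ≤ psi0 u x₀ y := by
  rw [psi0_eq_gap]
  exact gap_nonneg hu.isOpen hc hu.sm hu.pos hy h0

lemma psi0_pos (hu : AM W u) (hc : Convex ℝ W) (h0 : x₀ ∈ W) {y : Fin n → ℝ} (hy : y ∈ W)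
    (hne : y ≠ x₀) : 0 < psi0 u x₀ y := by
  rw [psi0_eq_gap]
  exact gap_pos hu.isOpen hc hu.sm hu.pos hy h0 hne.symm

/-- `ψ` is `1 + ψ₀/h` for every slope. -/
lemma psiF_eq (hu : AM W u) {y : Fin n → ℝ} (hy : y ∈ W) :
    psiF u x₀ p h y = 1 + psi0 u x₀ y / h := by
  simp only [psiF, psi0]
  rw [dotProduct_comm (y - x₀), Mass.capGrad_dot hu hy (y - x₀)]
  simp only [capFun]
  ring

lemma continuousOn_psi0 (hu : AM W u) : ContinuousOn (psi0 u x₀) W :=
  (((hu.sm.continuousOn_fderiv_of_isOpen hu.isOpen (by simp)).clm_apply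
    (continuousOn_id.sub continuousOn_const)).sub
      (hu.sm.continuousOn.sub continuousOn_const))

lemma continuousOn_det_rpow (hu : AM W u) (q : ℝ) :
    ContinuousOn (fun y => (hess u y).det ^ q) W :=
  (sm_det (msm_hess hu.isOpen hu.sm)).continuousOn.rpow_const fun _ hy =>
    Or.inl (hu.det_pos hy).ne'

lemma continuousOn_pInv (hu : AM W u) : ContinuousOn (pInv u) W := continuousOn_det_rpow hu _

lemma pInv_pos (hu : AM W u) {y : Fin n → ℝ} (hy : y ∈ W) : 0 < pInv u y :=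
  Real.rpow_pos_of_pos (hu.det_pos hy) _

lemma continuousOn_rhoF (hu : AM W u) : ContinuousOn (rhoF u x₀) W :=
  (continuousOn_pInv hu).mul (continuousOn_psi0 hu)

lemma rhoF_nonneg (hu : AM W u) (hc : Convex ℝ W) (h0 : x₀ ∈ W) {y : Fin n → ℝ} (hy : y ∈ W) :
    0 ≤ rhoF u x₀ y :=
  mul_nonneg (pInv_pos hu hy).le (psi0_nonneg hu hc h0 hy)

/-- Off a neighbourhood of the centre `ψ₀` is bounded below: it grows along rays. -/
lemma psi0_ray (hu : AM W u) (hc : Convex ℝ W) (h0 : x₀ ∈ W) {y : Fin n → ℝ} (hy : y ∈ W) {t : ℝ}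
    (ht0 : 0 ≤ t) (ht1 : t < 1) : psi0 u x₀ (x₀ + t • (y - x₀)) ≤ psi0 u x₀ y := by
  set d := y - x₀ with hd
  set z := x₀ + t • d with hz
  have hzW : z ∈ W := hc.add_smul_sub_mem h0 hy ⟨ht0, ht1.le⟩
  have hyz : y - z = (1 - t) • d := by
    rw [hz, hd, sub_smul, one_smul]; abel
  have h1 := gap_nonneg hu.isOpen hc hu.sm hu.pos hzW hy
  have h2 := gap_nonneg hu.isOpen hc hu.sm hu.pos hy hzW
  simp only [tangentGap, hyz, map_smul, smul_eq_mul] at h1
  simp only [tangentGap, show z - y = -((1 - t) • d) by rw [← hyz]; abel, map_neg, map_smul,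
    smul_eq_mul] at h2
  have hmono : fderiv ℝ u z d ≤ fderiv ℝ u y d := by
    nlinarith [sub_pos.2 ht1]
  simp only [psi0, ← hd, show z - x₀ = t • d by rw [hz]; abel, map_smul, smul_eq_mul]
  nlinarith

lemma exists_psi0_lb (hn : 0 < n) (hu : AM W u) (hc : Convex ℝ W) (h0 : x₀ ∈ W) {r : ℝ}
    (hr : 0 < r) (hball : Metric.closedBall x₀ r ⊆ W) :
    ∃ δ : ℝ, 0 < δ ∧ ∀ y ∈ W, r < ‖y - x₀‖ → δ ≤ psi0 u x₀ y := by
  have : Nontrivial (Fin n → ℝ) := by
    have : Nonempty (Fin n) := ⟨⟨0, hn⟩⟩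
    infer_instance
  obtain ⟨z₀, hz₀, hmin⟩ := (isCompact_sphere x₀ r).exists_isMinOn
    (NormedSpace.sphere_nonempty.2 hr.le)
    ((continuousOn_psi0 (x₀ := x₀) hu).mono (Metric.sphere_subset_closedBall.trans hball))
  have hz₀W : z₀ ∈ W := hball (Metric.sphere_subset_closedBall hz₀)
  refine ⟨psi0 u x₀ z₀, psi0_pos hu hc h0 hz₀W ?_, fun y hy hry => ?_⟩
  · rintro rfl
    simp only [Metric.mem_sphere, dist_self] at hz₀
    linarith
  · have hpos : 0 < ‖y - x₀‖ := hr.trans hry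
    refine le_trans (hmin ?_) (psi0_ray hu hc h0 hy (t := r / ‖y - x₀‖) (by positivity)
      ((div_lt_one hpos).2 hry))
    rw [Metric.mem_sphere, dist_eq_norm, add_sub_cancel_left, norm_smul, Real.norm_eq_abs,
      abs_of_pos (by positivity), div_mul_cancel₀ _ hpos.ne']

/-- On the whole domain `ũ/h ≥ -1/β`, for a balanced cap. -/
lemma capFun_lb (hu : AM W u) (hc : Convex ℝ W) (hh : 0 < h) (hβ : 0 < β)
    (hK : IsCap u x₀ p h β W) {y : Fin n → ℝ} (hy : y ∈ W) :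
    -β⁻¹ ≤ capFun u x₀ p y / h := by
  by_cases hle : capFun u x₀ p y ≤ h
  · have := Mass.etaF_le hu hc hh hβ hK ⟨hy, hle⟩
    simp only [etaF] at this
    linarith
  · have h1 : 0 ≤ capFun u x₀ p y / h := div_nonneg (by linarith [not_le.1 hle]) hh.le
    linarith [inv_nonneg.2 hβ.le]

lemma one_le_psi (hu : AM W u) (hc : Convex ℝ W) (hh : 0 < h) (h0 : x₀ ∈ W) {y : Fin n → ℝ}
    (hy : y ∈ W) : 1 ≤ psiF u x₀ p h y :=
  Mass.one_le_psiF hu hc hh hy h0

lemma continuousOn_weight (hu : AM W u) (hc : Convex ℝ W) (hh : 0 < h) (h0 : x₀ ∈ W)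
    {cc N b q : ℝ} (hcc : ∀ y ∈ W, 1 ≤ cc + capFun u x₀ p y / h) :
    ContinuousOn (weight u x₀ p h cc N b q) W :=
  (((continuousOn_const.add ((Mass.sm_capFun hu).continuousOn.div_const h)).rpow_const fun y hy =>
    Or.inl (lt_of_lt_of_le one_pos (hcc y hy)).ne').mul
      ((Mass.sm_psiF hu).continuousOn.rpow_const fun y hy =>
        Or.inl (lt_of_lt_of_le one_pos (one_le_psi hu hc hh h0 hy)).ne')).mul
    (continuousOn_det_rpow hu q)

lemma weight_nonneg (hu : AM W u) (hc : Convex ℝ W) (hh : 0 < h) (h0 : x₀ ∈ W)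
    {cc N b q : ℝ} (hcc : ∀ y ∈ W, 1 ≤ cc + capFun u x₀ p y / h) {y : Fin n → ℝ} (hy : y ∈ W) :
    0 ≤ weight u x₀ p h cc N b q y :=
  mul_nonneg (mul_nonneg (Real.rpow_nonneg (by linarith [hcc y hy]) _)
    (Real.rpow_nonneg (by linarith [one_le_psi (p := p) hu hc hh h0 hy]) _))
    (Real.rpow_nonneg (hu.det_pos hy).le _)

end

end Vale.Agent.P252.General.Rho
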