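import Vale.Agent.P252.Rigidity.General.Rho.Basic

/-!
# The mass of the log-convex weight

The weight is cut into the shells `ψ ∈ [2^j, 2^(j+1)]`, `cc + ũ/h ∈ [2^k, 2^(k+1)]`.  The shell lies
in `2^(k+1)` times the cap.  Its gradient image lies in `2^(j+1) h` times the polar, and is a thin
radial layer of relative width `2^j / 2^k` there, as `ψ` grows linearly along rays in the gradient
with slope `ψ - 1 + ũ/h`.
-/

namespace Vale.Agent.P252.General.Rho

open scoped ContDiff Matrix ENNReal Topology Pointwise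
open MeasureTheory Set Filter Finset Rigidity
open Three (AM)
open Mass (polarSet polarConst polarConst_nonneg)

noncomputable section

variable {n : ℕ} {W : Set (Fin n → ℝ)} {u : (Fin n → ℝ) → ℝ} {x₀ p : Fin n → ℝ} {h β cc : ℝ}

/-- The shell. -/
def shell (u : (Fin n → ℝ) → ℝ) (x₀ p : Fin n → ℝ) (h cc : ℝ) (W : Set (Fin n → ℝ))
    (j k : ℕ) : Set (Fin n → ℝ) :=
  {y | y ∈ W ∧ psiF u x₀ p h y ∈ Icc ((2 : ℝ) ^ j) (2 ^ (j + 1)) ∧
    cc + capFun u x₀ p y / h ∈ Icc ((2 : ℝ) ^ k) (2 ^ (k + 1))}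

lemma measurableSet_preimage_Icc (hW : IsOpen W) {f : (Fin n → ℝ) → ℝ} (hf : ContinuousOn f W)
    (a b : ℝ) : MeasurableSet (W ∩ f ⁻¹' Icc a b) := by
  have e : W ∩ f ⁻¹' Icc a b = (W \ (W ∩ f ⁻¹' Iio a)) \ (W ∩ f ⁻¹' Ioi b) := by
    ext y
    simp only [Set.mem_inter_iff, Set.mem_preimage, Set.mem_Icc, Set.mem_sdiff, Set.mem_Iio,
      Set.mem_Ioi, not_and, not_lt]
    tauto
  rw [e]
  exact (hW.measurableSet.diff (hf.isOpen_inter_preimage hW isOpen_Iio).measurableSet).diff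
    (hf.isOpen_inter_preimage hW isOpen_Ioi).measurableSet

lemma measurableSet_shell (hu : AM W u) (j k : ℕ) :
    MeasurableSet (shell u x₀ p h cc W j k) := by
  have h1 := measurableSet_preimage_Icc hu.isOpen (Mass.sm_psiF (x₀ := x₀) (p := p) (h := h)
    hu).continuousOn ((2 : ℝ) ^ j) (2 ^ (j + 1))
  have h2 := measurableSet_preimage_Icc hu.isOpen (f := fun y => cc + capFun u x₀ p y / h)
    (continuousOn_const.add ((Mass.sm_capFun hu).continuousOn.div_const h))
    ((2 : ℝ) ^ k) (2 ^ (k + 1))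
  convert h1.inter h2 using 1
  ext y
  simp only [shell, Set.mem_setOf_eq, Set.mem_inter_iff, Set.mem_preimage]
  tauto

/-- The part of the domain below height `M h` lies in `M` times the cap. -/
lemma volume_sublevel_le (hu : AM W u) (hc : Convex ℝ W) (h0 : x₀ ∈ W) {M : ℝ}
    (hM : 1 ≤ M) {S : Set (Fin n → ℝ)} (hS : ∀ y ∈ S, y ∈ W ∧ capFun u x₀ p y ≤ M * h) :
    volume S ≤ ENNReal.ofReal (M ^ n) * volume (capSet u x₀ p h W) := by
  have hM0 : 0 < M := lt_of_lt_of_le one_pos hM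
  have hsub : (fun y => y - x₀) '' S ⊆ M • ((fun y => y - x₀) '' capSet u x₀ p h W) := by
    rintro _ ⟨y, hy, rfl⟩
    obtain ⟨hyW, hle⟩ := hS y hy
    refine ⟨M⁻¹ • (y - x₀), ⟨x₀ + M⁻¹ • (y - x₀), ⟨?_, ?_⟩, by simp⟩, ?_⟩
    · exact hc.add_smul_sub_mem h0 hyW ⟨by positivity, inv_le_one_of_one_le₀ hM⟩
    · set z := x₀ + M⁻¹ • (y - x₀) with hz
      have hzW : z ∈ W := hc.add_smul_sub_mem h0 hyW ⟨by positivity, inv_le_one_of_one_le₀ hM⟩
      have h1 := Mass.capFun_tangent (x₀ := x₀) (p := p) hu hc hzW hyW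
      have h2 := Mass.capFun_tangent (x₀ := x₀) (p := p) hu hc hzW h0
      rw [show y - z = (1 - M⁻¹) • (y - x₀) by rw [hz, sub_smul, one_smul]; abel,
        dotProduct_smul, smul_eq_mul] at h1
      rw [show x₀ - z = -(M⁻¹ • (y - x₀)) by rw [hz]; abel, dotProduct_neg, dotProduct_smul,
        smul_eq_mul, Mass.capFun_self] at h2
      have hi : 0 < M⁻¹ := inv_pos.2 hM0
      have hi1 : M⁻¹ ≤ 1 := inv_le_one_of_one_le₀ hM
      have h3 : M⁻¹ * capFun u x₀ p y ≤ h := by
        rw [inv_mul_le_iff₀ hM0]; linarith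
      have h4 := mul_le_mul_of_nonneg_left h1 hi.le
      have h5 := mul_le_mul_of_nonneg_left h2 (sub_nonneg.2 hi1)
      linarith
    · show M • M⁻¹ • (y - x₀) = y - x₀
      rw [smul_smul, mul_inv_cancel₀ hM0.ne', one_smul]
  have htr : ∀ T : Set (Fin n → ℝ), volume ((fun y => y - x₀) '' T) = volume T := fun T => by
    rw [show (fun z => z - x₀) '' T = (fun z => z + x₀) ⁻¹' T from
      congrFun (Set.image_eq_preimage_of_inverse (fun z => sub_add_cancel z x₀)
        fun z => add_sub_cancel_right z x₀) T, measure_preimage_add_right]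
  calc volume S = volume ((fun y => y - x₀) '' S) := (htr S).symm
    _ ≤ volume (M • ((fun y => y - x₀) '' capSet u x₀ p h W)) := measure_mono hsub
    _ = _ := by
        rw [Measure.addHaar_smul, Module.finrank_fin_fun, abs_of_nonneg (by positivity), htr]

/-- Two points of the gradient image on one ray: `ψ` grows at least linearly. -/
lemma ray_growth (hu : AM W u) (hc : Convex ℝ W) (hh : 0 < h) {y y' : Fin n → ℝ} (hy : y ∈ W)
    (hy' : y' ∈ W) {t : ℝ} (e : capGrad u x₀ p y' = t • capGrad u x₀ p y) :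
    (t - 1) * (psiF u x₀ p h y - 1 + capFun u x₀ p y / h) ≤
      psiF u x₀ p h y' - psiF u x₀ p h y := by
  have h1 := Mass.capFun_tangent (x₀ := x₀) (p := p) hu hc hy' hy
  rw [show y - y' = (y - x₀) - (y' - x₀) by abel, dotProduct_sub] at h1
  have e1 : ∀ z, psiF u x₀ p h z - 1 =
      (capGrad u x₀ p z ⬝ᵥ (z - x₀) - capFun u x₀ p z) / h := fun z => by
    simp only [psiF]; rw [dotProduct_comm]; ring
  have e2 : capGrad u x₀ p y' ⬝ᵥ (y - x₀) = t * (capGrad u x₀ p y ⬝ᵥ (y - x₀)) := by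
    rw [e, smul_dotProduct, smul_eq_mul]
  rw [e2] at h1
  have h2 : (t * (capGrad u x₀ p y ⬝ᵥ (y - x₀)) - capFun u x₀ p y) / h ≤
      psiF u x₀ p h y' - 1 := by
    rw [e1]; exact div_le_div_of_nonneg_right (by linarith) hh.le
  have h3 : (t * (capGrad u x₀ p y ⬝ᵥ (y - x₀)) - capFun u x₀ p y) / h =
      (t - 1) * (psiF u x₀ p h y - 1 + capFun u x₀ p y / h) + (psiF u x₀ p h y - 1) := by
    rw [e1]; field_simp; ring
  linarith

/-- The polar is star shaped. -/
lemma smul_polar_subset {S : Set (Fin n → ℝ)} {a b : ℝ} (ha : 0 < a) (hab : a ≤ b) :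
    a • polarSet S ⊆ b • polarSet S := by
  rintro _ ⟨q, hq, rfl⟩
  refine ⟨(a / b) • q, fun y hy => ?_, ?_⟩
  · rw [smul_dotProduct, smul_eq_mul]
    have h1 : 0 ≤ a / b := by have := ha.trans_le hab; positivity
    have h2 : a / b ≤ 1 := (div_le_one (ha.trans_le hab)).2 hab
    nlinarith [hq y hy]
  · show b • (a / b) • q = a • q
    rw [smul_smul, mul_div_cancel₀ _ (ha.trans_le hab).ne']

/-- The gradient image of a shell: twice the trivial bound, over the number of disjoint copies. -/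
lemma image_copies_le (hu : AM W u) (hc : Convex ℝ W) (hh : 0 < h) (h0 : x₀ ∈ W) {j k : ℕ}
    {m : ℕ} (hm : 1 ≤ m)
    (hgain : m = 1 ∨ (2 : ℝ) ^ (j + 1) * (2 * (m : ℝ)) ≤ (2 : ℝ) ^ k - cc) :
    (m : ℝ≥0∞) * volume (capGrad u x₀ p '' shell u x₀ p h cc W j k) ≤
      ENNReal.ofReal ((2 ^ (j + 2) * h) ^ n) *
        volume (polarSet ((fun z => z - x₀) '' capSet u x₀ p h W)) := by
  set S := shell u x₀ p h cc W j k
  set A := capGrad u x₀ p '' S
  set P := polarSet ((fun z => z - x₀) '' capSet u x₀ p h W)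
  have hAsub : A ⊆ (2 ^ (j + 1) * h) • P := by
    rintro _ ⟨y, hy, rfl⟩
    exact Mass.capGrad_mem hu hc hh hy.1 hy.2.1.2 (by positivity)
  have hAm : MeasurableSet A :=
    (measurableSet_shell hu j k).image_of_continuousOn_injOn
      ((continuousOn_pi.2 fun i => (Mass.sm_capGrad hu i).continuousOn).mono fun y hy => hy.1)
      ((Mass.capGrad_injOn hu hc).mono fun y hy => hy.1)
  set lam : ℕ → ℝ := fun i => 1 + (i : ℝ) / m with hlam
  have hm0 : (0 : ℝ) < m := by exact_mod_cast hm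
  have hlam1 : ∀ i, 1 ≤ lam i := fun i => le_add_of_nonneg_right (by positivity)
  have hlam2 : ∀ i ∈ Finset.range m, lam i ≤ 2 := fun i hi => by
    have : (i : ℝ) / m ≤ 1 :=
      (div_le_one hm0).2 (by exact_mod_cast (Finset.mem_range.1 hi).le)
    simp only [lam]
    linarith
  have hdisj : (Finset.range m : Set ℕ).Pairwise fun i i' => Disjoint (lam i • A) (lam i' • A) := by
    intro i hi i' hi' hne
    wlog hlt : i < i' generalizing i i'
    · exact (this hi' hi hne.symm (lt_of_le_of_ne (not_lt.1 hlt) hne.symm)).symm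
    rcases hgain with hm1 | hgain
    · have h1 := Finset.mem_range.1 hi'
      omega
    rw [Set.disjoint_left]
    intro g hg hg'
    rw [Set.mem_smul_set] at hg hg'
    obtain ⟨_, ⟨y', hy', rfl⟩, rfl⟩ := hg
    obtain ⟨_, ⟨y, hy, rfl⟩, e⟩ := hg'
    have hi0 : 0 < lam i := lt_of_lt_of_le one_pos (hlam1 i)
    set t := lam i' / lam i with ht
    have e' : capGrad u x₀ p y' = t • capGrad u x₀ p y := by
      rw [ht, div_eq_inv_mul, ← smul_smul, e, smul_smul, inv_mul_cancel₀ hi0.ne', one_smul]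
    have ht1 : 1 / (2 * (m : ℝ)) ≤ t - 1 := by
      rw [ht, div_sub_one hi0.ne', le_div_iff₀ hi0]
      have e3 : lam i' - lam i = ((i' : ℝ) - i) / m := by simp only [lam]; ring
      have e4 : (1 : ℝ) ≤ (i' : ℝ) - i := by
        have : ((i : ℝ) + 1) ≤ i' := by exact_mod_cast hlt
        linarith
      rw [e3, le_div_iff₀ hm0]
      calc 1 / (2 * (m : ℝ)) * lam i * m = lam i / 2 := by field_simp
        _ ≤ 1 := by linarith [hlam2 i hi]
        _ ≤ _ := e4
    have hgr := ray_growth (x₀ := x₀) (p := p) (h := h) hu hc hh hy.1 hy'.1 e'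
    have hpos : (0 : ℝ) < 2 ^ (j + 1) := by positivity
    have hslope : (2 : ℝ) ^ k - cc ≤ psiF u x₀ p h y - 1 + capFun u x₀ p y / h := by
      linarith [hy.2.2.1, one_le_psi (p := p) hu hc hh h0 hy.1]
    have h5 : (2 : ℝ) ^ (j + 1) ≤ psiF u x₀ p h y' - psiF u x₀ p h y := by
      refine le_trans ?_ hgr
      refine le_trans ?_ (mul_le_mul ht1 (hgain.trans hslope) (by positivity)
        (le_trans (by positivity) ht1))
      rw [div_mul_eq_mul_div, one_mul, le_div_iff₀ (by positivity)]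
    linarith [hy'.2.1.2, one_le_psi (p := p) hu hc hh h0 hy.1]
  have hsub2 : ∀ i ∈ Finset.range m, lam i • A ⊆ (2 ^ (j + 2) * h) • P := fun i hi => by
    refine (Set.smul_set_mono hAsub).trans ?_
    rw [smul_smul]
    refine smul_polar_subset (by have := hlam1 i; positivity) ?_
    calc lam i * (2 ^ (j + 1) * h) ≤ 2 * (2 ^ (j + 1) * h) :=
          mul_le_mul_of_nonneg_right (hlam2 i hi) (by positivity)
      _ = _ := by ring
  calc (m : ℝ≥0∞) * volume A = ∑ i ∈ Finset.range m, volume A := by simp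
    _ ≤ ∑ i ∈ Finset.range m, volume (lam i • A) := Finset.sum_le_sum fun i _ => by
        rw [Measure.addHaar_smul, Module.finrank_fin_fun]
        refine le_mul_of_one_le_left zero_le ?_
        rw [ENNReal.one_le_ofReal, abs_of_nonneg (by have := hlam1 i; positivity)]
        exact one_le_pow₀ (hlam1 i)
    _ = volume (⋃ i ∈ Finset.range m, lam i • A) :=
        (measure_biUnion_finset hdisj fun i _ => hAm.const_smul₀ _).symm
    _ ≤ volume ((2 ^ (j + 2) * h) • P) := measure_mono (Set.iUnion₂_subset hsub2)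
    _ = _ := by rw [Measure.addHaar_smul, Module.finrank_fin_fun, abs_of_nonneg (by positivity)]

/-- The integral of `det D²u` over a shell. -/
lemma shell_det_le (hu : AM W u) (hc : Convex ℝ W) (hh : 0 < h) (hβ : 0 < β) (h0 : x₀ ∈ W)
    (hK : IsCap u x₀ p h β W) (hcc : 1 ≤ cc) (j k : ℕ) {θ : ℝ} (hθ0 : 0 ≤ θ) (hθ1 : θ ≤ 1)
    (hV : 0 < (volume (capSet u x₀ p h W)).toReal) :
    ∫⁻ y in shell u x₀ p h cc W j k, ENNReal.ofReal (hess u y).det ≤
      ENNReal.ofReal ((8 * cc + 32) * 4 ^ n * polarConst n β * (h ^ n /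
        (volume (capSet u x₀ p h W)).toReal) * ((2 : ℝ) ^ j) ^ n *
          ((2 : ℝ) ^ j / 2 ^ k) ^ θ) := by
  set S := shell u x₀ p h cc W j k with hS
  set V := (volume (capSet u x₀ p h W)).toReal with hVdef
  set P := polarSet ((fun z => z - x₀) '' capSet u x₀ p h W)
  set A := capGrad u x₀ p '' S
  have himg : ∫⁻ y in S, ENNReal.ofReal (hess u y).det = volume A := by
    refine Eq.trans (setLIntegral_congr_fun (measurableSet_shell hu j k) fun y hy => ?_)
      (lintegral_abs_det_fderiv_eq_addHaar_image volume (measurableSet_shell hu j k)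
        (fun y hy => (Mass.hasFDerivAt_capGrad hu hy.1).hasFDerivWithinAt)
        ((Mass.capGrad_injOn hu hc).mono fun y hy => hy.1))
    show _ = ENNReal.ofReal |LinearMap.det _|
    rw [LinearMap.coe_toContinuousLinearMap, LinearMap.det_toLin', Matrix.det_transpose,
      abs_of_pos (hu.det_pos hy.1)]
  rw [himg]
  have hbalS : ∀ z ∈ (fun z => z - x₀) '' capSet u x₀ p h W,
      -β • z ∈ (fun z => z - x₀) '' capSet u x₀ p h W := by
    rintro _ ⟨y, hy, rfl⟩
    refine ⟨_, hK.bal y hy, ?_⟩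
    show x₀ - β • (y - x₀) - x₀ = _
    rw [neg_smul]; abel
  have hp := Mass.vol_mul_vol_polar_le hβ (hK.cpt.image (by fun_prop)) hbalS
  rw [show volume ((fun z => z - x₀) '' capSet u x₀ p h W) = volume (capSet u x₀ p h W) by
    rw [show (fun z => z - x₀) '' capSet u x₀ p h W = (fun z => z + x₀) ⁻¹' capSet u x₀ p h W from
      congrFun (Set.image_eq_preimage_of_inverse (fun z => sub_add_cancel z x₀)
        fun z => add_sub_cancel_right z x₀) _, measure_preimage_add_right]] at hp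
  have hP : volume P ≤ ENNReal.ofReal (polarConst n β / V) := by
    rw [← ENNReal.ofReal_toReal hK.cpt.measure_lt_top.ne, ← hVdef, mul_comm] at hp
    rw [ENNReal.ofReal_div_of_pos hV,
      ENNReal.le_div_iff_mul_le (Or.inl (ENNReal.ofReal_pos.2 hV).ne') (Or.inl ENNReal.ofReal_ne_top)]
    exact hp
  set x := (2 : ℝ) ^ j / 2 ^ k with hx
  have hx0 : 0 < x := by positivity
  set c₀ := (8 * cc + 32) * 4 ^ n * polarConst n β * (h ^ n / V) * ((2 : ℝ) ^ j) ^ n with hc₀
  have hc₀0 : 0 ≤ c₀ := by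
    have := polarConst_nonneg n β
    have : 0 ≤ h ^ n / V := by positivity
    positivity
  set D := (2 ^ (j + 2) * h) ^ n * (polarConst n β / V) with hD
  have hD0 : 0 ≤ D := mul_nonneg (by positivity) (div_nonneg (polarConst_nonneg n β) hV.le)
  have hDc : (8 * cc + 32) * D = c₀ := by
    simp only [D, c₀, mul_pow, pow_add]
    ring
  have hone : ∀ m : ℕ, 1 ≤ m →
      (m = 1 ∨ (2 : ℝ) ^ (j + 1) * (2 * (m : ℝ)) ≤ (2 : ℝ) ^ k - cc) →
      (m : ℝ≥0∞) * volume A ≤ ENNReal.ofReal D := fun m hm hg => by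
    refine (image_copies_le hu hc hh h0 hm hg).trans ?_
    rw [ENNReal.ofReal_mul (by positivity)]
    exact mul_le_mul' le_rfl hP
  have htriv : volume A ≤ ENNReal.ofReal D := by simpa using hone 1 le_rfl (Or.inl rfl)
  by_cases hbig : 2 * cc ≤ (2 : ℝ) ^ k ∧ 16 * (2 : ℝ) ^ j ≤ 2 ^ k
  · set m := ⌊(2 : ℝ) ^ k / (8 * 2 ^ j)⌋₊ with hm
    have hq2 : 2 ≤ (2 : ℝ) ^ k / (8 * 2 ^ j) := by
      rw [le_div_iff₀ (by positivity)]; linarith [hbig.2]
    have hm1 : 1 ≤ m := Nat.le_floor (by norm_num; linarith)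
    have hmle := Nat.floor_le (show 0 ≤ (2 : ℝ) ^ k / (8 * 2 ^ j) by positivity)
    have hmge : (2 : ℝ) ^ k / (16 * 2 ^ j) ≤ m := by
      have h1 := Nat.lt_floor_add_one ((2 : ℝ) ^ k / (8 * 2 ^ j))
      have e : (2 : ℝ) ^ k / (16 * 2 ^ j) = (2 : ℝ) ^ k / (8 * 2 ^ j) / 2 := by
        field_simp; ring
      rw [← hm] at h1
      linarith
    have hg : (2 : ℝ) ^ (j + 1) * (2 * (m : ℝ)) ≤ (2 : ℝ) ^ k - cc := by
      have h1 : (m : ℝ) * (8 * 2 ^ j) ≤ 2 ^ k := by
        rw [← le_div_iff₀ (by positivity)]; exact hmle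
      rw [pow_succ]
      linarith [hbig.1]
    have h2 := hone m hm1 (Or.inr hg)
    have hmR : (0 : ℝ) < m := by exact_mod_cast hm1
    refine le_trans ?_ (ENNReal.ofReal_le_ofReal (show D / m ≤ c₀ * x ^ θ from ?_))
    · rw [ENNReal.ofReal_div_of_pos hmR, ENNReal.ofReal_natCast,
        ENNReal.le_div_iff_mul_le (Or.inl (by exact_mod_cast (Nat.one_le_iff_ne_zero.1 hm1)))
          (Or.inl (ENNReal.natCast_ne_top m)), mul_comm]
      exact h2
    · have hx1 : x ≤ 1 := by
        rw [hx, div_le_one (by positivity)]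
        linarith [hbig.2, show (0 : ℝ) < 2 ^ j by positivity]
      have h3 : x ≤ x ^ θ := by
        simpa using Real.rpow_le_rpow_of_exponent_ge hx0 hx1 hθ1
      calc D / m ≤ D / ((2 : ℝ) ^ k / (16 * 2 ^ j)) :=
            div_le_div_of_nonneg_left hD0 (by positivity) hmge
        _ = 16 * D * x := by rw [hx]; field_simp
        _ ≤ (8 * cc + 32) * D * x ^ θ :=
            mul_le_mul (mul_le_mul_of_nonneg_right (by linarith) hD0) h3 hx0.le (by positivity)
        _ = _ := by rw [hDc]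
  · refine htriv.trans (ENNReal.ofReal_le_ofReal ?_)
    have hlow : 1 ≤ (8 * cc + 32) * x := by
      rw [hx, mul_div_assoc', le_div_iff₀ (by positivity), one_mul]
      have h2j : (1 : ℝ) ≤ 2 ^ j := one_le_pow₀ (by norm_num)
      rcases not_and_or.1 hbig with h1 | h1
      · nlinarith [not_le.1 h1]
      · nlinarith [not_le.1 h1]
    have hkey : 1 ≤ (8 * cc + 32) * x ^ θ := by
      rcases le_or_gt x 1 with hx1 | hx1
      · refine hlow.trans (mul_le_mul_of_nonneg_left ?_ (by linarith))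
        simpa using Real.rpow_le_rpow_of_exponent_ge hx0 hx1 hθ1
      · exact le_trans (by linarith : (1 : ℝ) ≤ (8 * cc + 32) * 1)
          (mul_le_mul_of_nonneg_left (Real.one_le_rpow hx1.le hθ0) (by linarith))
    calc D = D * 1 := (mul_one D).symm
      _ ≤ D * ((8 * cc + 32) * x ^ θ) := mul_le_mul_of_nonneg_left hkey hD0
      _ = c₀ * x ^ θ := by rw [← hDc]; ring

/-- `∫ f^q ≤ A^q B^(1-q)` from `∫ f ≤ A` and `volume ≤ B`. -/
lemma lintegral_rpow_le {S : Set (Fin n → ℝ)} (hS : MeasurableSet S) {f : (Fin n → ℝ) → ℝ}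
    (hf : ∀ y ∈ S, 0 ≤ f y) (hfm : AEMeasurable (fun y => ENNReal.ofReal (f y)) (volume.restrict S))
    {q : ℝ} (hq0 : 0 < q) (hq1 : q ≤ 1) {A B : ℝ} (hA : 0 < A) (hB : 0 < B)
    (hfA : ∫⁻ y in S, ENNReal.ofReal (f y) ≤ ENNReal.ofReal A)
    (hSB : volume S ≤ ENNReal.ofReal B) :
    ∫⁻ y in S, ENNReal.ofReal (f y ^ q) ≤ ENNReal.ofReal (A ^ q * B ^ (1 - q)) := by
  set t := A / B with ht
  have ht0 : 0 < t := by positivity
  set c1 := q * t ^ (q - 1)
  set c2 := (1 - q) * t ^ q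
  have hc1 : 0 ≤ c1 := by positivity
  have hc2 : 0 ≤ c2 := mul_nonneg (by linarith) (by positivity)
  have hpt : ∀ y ∈ S, f y ^ q ≤ c1 * f y + c2 := by
    intro y hy
    have h1 := Real.geom_mean_le_arith_mean2_weighted hq0.le (sub_nonneg.2 hq1)
      (show 0 ≤ f y / t by have := hf y hy; positivity) zero_le_one (by ring)
    rw [Real.one_rpow, mul_one, mul_one, Real.div_rpow (hf y hy) ht0.le,
      div_le_iff₀ (Real.rpow_pos_of_pos ht0 q)] at h1
    refine h1.trans (le_of_eq ?_)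
    simp only [c1, c2, Real.rpow_sub ht0, Real.rpow_one]
    field_simp
  have hval : c1 * A + c2 * B = A ^ q * B ^ (1 - q) := by
    simp only [c1, c2]
    rw [Real.rpow_sub ht0, Real.rpow_one, ht, Real.div_rpow hA.le hB.le, Real.rpow_sub hB,
      Real.rpow_one]
    field_simp
    ring
  calc ∫⁻ y in S, ENNReal.ofReal (f y ^ q)
      ≤ ∫⁻ y in S, (ENNReal.ofReal c1 * ENNReal.ofReal (f y) + ENNReal.ofReal c2) :=
        setLIntegral_mono' hS fun y hy => by
          rw [← ENNReal.ofReal_mul hc1, ← ENNReal.ofReal_add (mul_nonneg hc1 (hf y hy)) hc2]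
          exact ENNReal.ofReal_le_ofReal (hpt y hy)
    _ = ENNReal.ofReal c1 * (∫⁻ y in S, ENNReal.ofReal (f y)) + ENNReal.ofReal c2 * volume S := by
        rw [lintegral_add_right' _ aemeasurable_const, lintegral_const_mul'' _ hfm, setLIntegral_const]
    _ ≤ ENNReal.ofReal c1 * ENNReal.ofReal A + ENNReal.ofReal c2 * ENNReal.ofReal B :=
        add_le_add (mul_le_mul' le_rfl hfA) (mul_le_mul' le_rfl hSB)
    _ = _ := by
        rw [← ENNReal.ofReal_mul hc1, ← ENNReal.ofReal_mul hc2,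
          ← ENNReal.ofReal_add (by positivity) (by positivity), hval]

lemma exists_dyadic {x : ℝ} (hx : 1 ≤ x) : ∃ j : ℕ, x ∈ Icc ((2 : ℝ) ^ j) (2 ^ (j + 1)) := by
  obtain ⟨j, h1, h2⟩ := exists_nat_pow_near hx (show (1 : ℝ) < 2 by norm_num)
  exact ⟨j, h1, h2.le⟩

theorem rhoMass {β cc N b q : ℝ} (hβ : 0 < β) (hcc : 1 + β⁻¹ ≤ cc)
    (hq0 : 0 < q) (hq1 : q ≤ 1) (hN1 : (n : ℝ) * (1 - q) - q < N) (hN0 : 0 ≤ N)
    (hb : (n : ℝ) * q < b) (hNb : (n : ℝ) < N + b) : RhoMass n β cc N b q := by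
  obtain ⟨θ, hθ0, hθ1, he1, he2⟩ : ∃ θ : ℝ, 0 ≤ θ ∧ θ ≤ 1 ∧ (n : ℝ) * q + θ * q < b ∧
      (n : ℝ) * (1 - q) - θ * q < N := by
    set lo := max 0 (((n : ℝ) * (1 - q) - N) / q)
    set hi := min 1 ((b - (n : ℝ) * q) / q)
    have h1 : lo < hi := by
      refine max_lt (lt_min one_pos (div_pos (by linarith) hq0)) (lt_min ?_ ?_)
      · rw [div_lt_one hq0]; linarith
      · exact div_lt_div_of_pos_right (by linarith) hq0
    refine ⟨(lo + hi) / 2, ?_, ?_, ?_, ?_⟩
    · linarith [le_max_left 0 (((n : ℝ) * (1 - q) - N) / q)]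
    · linarith [min_le_left 1 ((b - (n : ℝ) * q) / q)]
    · have h2 : (lo + hi) / 2 < (b - (n : ℝ) * q) / q :=
        lt_of_lt_of_le (show (lo + hi) / 2 < hi by linarith) (min_le_right _ _)
      rw [lt_div_iff₀ hq0] at h2
      linarith
    · have h2 : ((n : ℝ) * (1 - q) - N) / q < (lo + hi) / 2 :=
        lt_of_le_of_lt (le_max_right _ _) (show lo < (lo + hi) / 2 by linarith)
      rw [div_lt_iff₀ hq0] at h2
      linarith
  set e1 := b - (n : ℝ) * q - θ * q with he1'
  set e2 := N - (n : ℝ) * (1 - q) + θ * q with he2'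
  set r1 := (2 : ℝ) ^ (-e1) with hr1
  set r2 := (2 : ℝ) ^ (-e2) with hr2
  have hr10 : 0 ≤ r1 := by positivity
  have hr20 : 0 ≤ r2 := by positivity
  have hr11 : r1 < 1 := Real.rpow_lt_one_of_one_lt_of_neg (by norm_num) (by linarith)
  have hr21 : r2 < 1 := Real.rpow_lt_one_of_one_lt_of_neg (by norm_num) (by linarith)
  have hcc1 : 1 ≤ cc := by linarith [inv_nonneg.2 hβ.le]
  set Cs := ((8 * cc + 32) * 4 ^ n * polarConst n β) ^ q * ((2 : ℝ) ^ n) ^ (1 - q) with hCs
  have hCs0 : 0 ≤ Cs := by have := polarConst_nonneg n β; positivity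
  refine ⟨Cs * ((1 - r1)⁻¹ * (1 - r2)⁻¹),
    mul_nonneg hCs0 (mul_nonneg (by simp; linarith) (by simp; linarith)), ?_⟩
  intro W u hu hc x₀ h0 p h hh hK
  have hccW : ∀ y ∈ W, 1 ≤ cc + capFun u x₀ p y / h := fun y hy => by
    linarith [capFun_lb hu hc hh hβ hK hy]
  set w := weight u x₀ p h cc N b q
  have hwc : ContinuousOn w W := continuousOn_weight hu hc hh h0 hccW
  have hw0 : ∀ y ∈ W, 0 ≤ w y := fun y hy => weight_nonneg hu hc hh h0 hccW hy
  set V := (volume (capSet u x₀ p h W)).toReal with hVdef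
  have hV : 0 < V := by
    refine ENNReal.toReal_pos (ne_of_gt ?_) hK.cpt.measure_lt_top.ne
    have hsub : W ∩ capFun u x₀ p ⁻¹' Iio h ⊆ capSet u x₀ p h W :=
      fun y hy => ⟨hy.1, le_of_lt (show capFun u x₀ p y < h from hy.2)⟩
    refine lt_of_lt_of_le ?_ (measure_mono hsub)
    exact ((Mass.sm_capFun hu).continuousOn.isOpen_inter_preimage hu.isOpen isOpen_Iio
      ).measure_pos volume ⟨x₀, h0, by simpa [Mass.capFun_self] using hh⟩
  set X := h ^ ((n : ℝ) * q) * V ^ (1 - 2 * q) with hX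
  have hX0 : 0 ≤ X := by positivity
  -- one shell
  have hterm : ∀ j k : ℕ, ∫⁻ y in shell u x₀ p h cc W j k, ENNReal.ofReal (w y) ≤
      ENNReal.ofReal (Cs * X) * (ENNReal.ofReal r1 ^ j * ENNReal.ofReal r2 ^ k) := by
    intro j k
    set S := shell u x₀ p h cc W j k
    have hSm : MeasurableSet S := measurableSet_shell hu j k
    set a := (2 : ℝ) ^ j
    set c := (2 : ℝ) ^ k
    have ha : 0 < a := by positivity
    have hc0 : 0 < c := by positivity
    have hA : 0 < (8 * cc + 32) * 4 ^ n * polarConst n β * (h ^ n / V) * a ^ n * (a / c) ^ θ := by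
      have : 0 < polarConst n β := pow_pos (by positivity) n
      have : 0 < h ^ n / V := by positivity
      have : 0 < (a / c) ^ θ := by positivity
      positivity
    have hB : 0 < (2 * c) ^ n * V := by positivity
    have hvol : volume S ≤ ENNReal.ofReal ((2 * c) ^ n * V) := by
      rw [ENNReal.ofReal_mul (by positivity), ENNReal.ofReal_toReal hK.cpt.measure_lt_top.ne]
      refine volume_sublevel_le hu hc h0 ?_ fun y hy => ⟨hy.1, ?_⟩
      · linarith [show (1 : ℝ) ≤ c from one_le_pow₀ (by norm_num)]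
      · have h1 := hy.2.2.2
        rw [pow_succ] at h1
        rw [← div_le_iff₀ hh]
        linarith
    have hfm : AEMeasurable (fun y => ENNReal.ofReal (hess u y).det) (volume.restrict S) :=
      ((sm_det (msm_hess hu.isOpen hu.sm)).continuousOn.mono fun y hy => hy.1).aemeasurable hSm
        |>.ennreal_ofReal
    have hdet := lintegral_rpow_le hSm (fun y hy => (hu.det_pos hy.1).le) hfm hq0 hq1 hA hB
      (shell_det_le hu hc hh hβ h0 hK hcc1 j k hθ0 hθ1 hV) hvol
    calc ∫⁻ y in S, ENNReal.ofReal (w y)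
        ≤ ∫⁻ y in S, ENNReal.ofReal (c ^ (-N) * a ^ (-b)) *
            ENNReal.ofReal ((hess u y).det ^ q) := setLIntegral_mono' hSm fun y hy => by
          rw [← ENNReal.ofReal_mul (by positivity)]
          refine ENNReal.ofReal_le_ofReal (mul_le_mul_of_nonneg_right (mul_le_mul ?_ ?_ ?_ ?_)
            (Real.rpow_nonneg (hu.det_pos hy.1).le _))
          · exact Real.rpow_le_rpow_of_nonpos hc0 hy.2.2.1 (by linarith)
          · exact Real.rpow_le_rpow_of_nonpos ha hy.2.1.1 (by nlinarith)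
          · exact Real.rpow_nonneg (by linarith [one_le_psi (p := p) hu hc hh h0 hy.1]) _
          · positivity
      _ = ENNReal.ofReal (c ^ (-N) * a ^ (-b)) *
            ∫⁻ y in S, ENNReal.ofReal ((hess u y).det ^ q) :=
          lintegral_const_mul' _ _ ENNReal.ofReal_ne_top
      _ ≤ ENNReal.ofReal (c ^ (-N) * a ^ (-b)) * ENNReal.ofReal (_ ^ q * _ ^ (1 - q)) :=
          mul_le_mul' le_rfl hdet
      _ = _ := by
          rw [← ENNReal.ofReal_mul (by positivity), ← ENNReal.ofReal_pow hr10,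
            ← ENNReal.ofReal_pow hr20, ← ENNReal.ofReal_mul (by positivity),
            ← ENNReal.ofReal_mul (by positivity)]
          congr 1
          have hpc := polarConst_nonneg n β
          have hk1 : 0 ≤ (8 * cc + 32) * 4 ^ n * polarConst n β := by positivity
          have hra : r1 ^ j = a ^ (-e1) := by
            rw [hr1, ← Real.rpow_natCast ((2 : ℝ) ^ (-e1)) j, ← Real.rpow_mul zero_le_two,
              mul_comm, Real.rpow_mul zero_le_two, Real.rpow_natCast]
          have hrc : r2 ^ k = c ^ (-e2) := by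
            rw [hr2, ← Real.rpow_natCast ((2 : ℝ) ^ (-e2)) k, ← Real.rpow_mul zero_le_two,
              mul_comm, Real.rpow_mul zero_le_two, Real.rpow_natCast]
          rw [hra, hrc]
          simp only [Cs, X, e1, e2]
          generalize (8 * cc + 32) * 4 ^ n * polarConst n β = K at hk1 ⊢
          have hn2 : (0 : ℝ) ≤ 2 ^ n := by positivity
          have han : (a ^ n) ^ q = a ^ ((n : ℝ) * q) := by
            rw [← Real.rpow_natCast a n, ← Real.rpow_mul ha.le]
          have hat : ((a / c) ^ θ) ^ q = a ^ (θ * q) / c ^ (θ * q) := by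
            rw [← Real.rpow_mul (by positivity : 0 ≤ a / c), Real.div_rpow ha.le hc0.le]
          have hcn : ((2 * c) ^ n * V) ^ (1 - q) =
              (2 ^ n) ^ (1 - q) * c ^ ((n : ℝ) * (1 - q)) * V ^ (1 - q) := by
            rw [mul_pow, Real.mul_rpow (by positivity) hV.le, Real.mul_rpow hn2 (by positivity),
              ← Real.rpow_natCast c n, ← Real.rpow_mul hc0.le]
          have hhn : (h ^ n / V) ^ q = h ^ ((n : ℝ) * q) / V ^ q := by
            rw [Real.div_rpow (pow_nonneg hh.le n) hV.le, ← Real.rpow_natCast h n,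
              ← Real.rpow_mul hh.le]
          rw [Real.mul_rpow (by positivity) (by positivity),
            Real.mul_rpow (by positivity) (by positivity),
            Real.mul_rpow hk1 (by positivity), han, hat, hcn, hhn,
            show -(b - (n : ℝ) * q - θ * q) = -b + ((n : ℝ) * q + θ * q) by ring,
            Real.rpow_add ha, Real.rpow_add ha,
            show -(N - (n : ℝ) * (1 - q) + θ * q) = -N + ((n : ℝ) * (1 - q) - θ * q) by ring,
            Real.rpow_add hc0, Real.rpow_sub hc0,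
            show V ^ ((1 : ℝ) - 2 * q) = V ^ (1 - q) / V ^ q by
              rw [← Real.rpow_sub hV]; congr 1; ring]
          field_simp
  -- all the shells
  have hcov : W ⊆ ⋃ j, ⋃ k, shell u x₀ p h cc W j k := fun y hy => by
    obtain ⟨j, hj⟩ := exists_dyadic (one_le_psi (p := p) hu hc hh h0 hy)
    obtain ⟨k, hk⟩ := exists_dyadic (hccW y hy)
    exact Set.mem_iUnion₂.2 ⟨j, k, hy, hj, hk⟩
  have htot : ∫⁻ y in W, ENNReal.ofReal (w y) ≤
      ENNReal.ofReal (Cs * X * ((1 - r1)⁻¹ * (1 - r2)⁻¹)) := by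
    calc ∫⁻ y in W, ENNReal.ofReal (w y)
        ≤ ∫⁻ y in ⋃ j, ⋃ k, shell u x₀ p h cc W j k, ENNReal.ofReal (w y) :=
          lintegral_mono_set hcov
      _ ≤ ∑' j, ∫⁻ y in ⋃ k, shell u x₀ p h cc W j k, ENNReal.ofReal (w y) :=
          lintegral_iUnion_le _ _
      _ ≤ ∑' j, ∑' k, ∫⁻ y in shell u x₀ p h cc W j k, ENNReal.ofReal (w y) :=
          ENNReal.tsum_le_tsum fun j => lintegral_iUnion_le _ _
      _ ≤ ∑' j : ℕ, ∑' k : ℕ, ENNReal.ofReal (Cs * X) *
            (ENNReal.ofReal r1 ^ j * ENNReal.ofReal r2 ^ k) :=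
          ENNReal.tsum_le_tsum fun j => ENNReal.tsum_le_tsum fun k => hterm j k
      _ = _ := by
          simp only [ENNReal.tsum_mul_left, ENNReal.tsum_mul_right, ENNReal.tsum_geometric]
          rw [← ENNReal.ofReal_one, ← ENNReal.ofReal_sub _ hr10, ← ENNReal.ofReal_sub _ hr20,
            ← ENNReal.ofReal_inv_of_pos (by linarith), ← ENNReal.ofReal_inv_of_pos (by linarith),
            ← ENNReal.ofReal_mul (inv_nonneg.2 (by linarith)),
            ← ENNReal.ofReal_mul (mul_nonneg hCs0 hX0)]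
  have hwm : AEStronglyMeasurable w (volume.restrict W) :=
    hwc.aestronglyMeasurable hu.isOpen.measurableSet
  have hwnn : 0 ≤ᵐ[volume.restrict W] w :=
    (ae_restrict_mem hu.isOpen.measurableSet).mono hw0
  have hI : IntegrableOn w W := by
    refine ⟨hwm, ?_⟩
    rw [hasFiniteIntegral_iff_ofReal hwnn]
    exact lt_of_le_of_lt htot ENNReal.ofReal_lt_top
  refine ⟨hI, ?_⟩
  have e : Cs * ((1 - r1)⁻¹ * (1 - r2)⁻¹) * h ^ ((n : ℝ) * q) * V ^ (1 - 2 * q) =
      Cs * X * ((1 - r1)⁻¹ * (1 - r2)⁻¹) := by simp only [X]; ring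
  rw [e, integral_eq_lintegral_of_nonneg_ae hwnn hwm]
  exact ENNReal.toReal_le_of_le_ofReal
    (mul_nonneg (mul_nonneg hCs0 hX0) (mul_nonneg (by simp; linarith) (by simp; linarith))) htot

theorem rhoMassGoal (n : ℕ) : RhoMassGoal n :=
  fun _ _ _ _ _ _ hβ hcc hq0 hq1 hN1 hN0 hb hNb => rhoMass hβ hcc hq0 hq1 hN1 hN0 hb hNb


end

end Vale.Agent.P252.General.Rho
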