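import Vale.Agent.P252.Rigidity.General.Rho.MaxBound
import Vale.Agent.P252.Rigidity.General.Cap
import Vale.Agent.P252.Rigidity.General.CapUnif

/-!
# The sublevels of the affine support function are compact

The section of `u` at `y` that contains a balanced cap at `x₀` is a compact cap around the midpoint
of `x₀` and `y`.  So `det D²u(y) (1 + |y - x₀|²) ≤ C (ψ₀ + h)ⁿ`, which bounds `ψ₀` and `y` on
`ρ ≤ L`, and then `u`.
-/

namespace Vale.Agent.P252.General.Rho

open scoped ContDiff Matrix Topology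
open MeasureTheory Set Filter Finset Rigidity
open Three (AM logDet)

noncomputable section

variable {n : ℕ} {W : Set (Fin n → ℝ)} {u : (Fin n → ℝ) → ℝ} {x₀ p : Fin n → ℝ} {h β : ℝ}

/-- The gap seen from `y` is convex on pairs. -/
lemma gap_midpoint_le (hu : AM W u) (hc : Convex ℝ W) {y a b : Fin n → ℝ} (ha : a ∈ W)
    (hb : b ∈ W) :
    (1 / 2 : ℝ) • a + (1 / 2 : ℝ) • b ∈ W ∧
      2 * tangentGap u y ((1 / 2 : ℝ) • a + (1 / 2 : ℝ) • b) ≤
        tangentGap u y a + tangentGap u y b := by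
  set m := (1 / 2 : ℝ) • a + (1 / 2 : ℝ) • b with hm
  have hmW : m ∈ W := hc ha hb (by norm_num) (by norm_num) (by norm_num)
  refine ⟨hmW, ?_⟩
  have h1 := gap_nonneg hu.isOpen hc hu.sm hu.pos hmW ha
  have h2 := gap_nonneg hu.isOpen hc hu.sm hu.pos hmW hb
  have e : (a - m) + (b - m) = 0 := by
    rw [hm]; ext i; simp; ring
  have e3 : fderiv ℝ u m (a - m) + fderiv ℝ u m (b - m) = 0 := by rw [← map_add, e, map_zero]
  have e4 : fderiv ℝ u y (a - y) + fderiv ℝ u y (b - y) = 2 * fderiv ℝ u y (m - y) := by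
    rw [← map_add, ← smul_eq_mul, ← map_smul]
    congr 1
    rw [hm]; ext i; simp; ring
  simp only [tangentGap] at h1 h2 ⊢
  linarith

/-- The bound of the Hessian determinant at an arbitrary point by a balanced cap containing a
cube. -/
theorem det_le (hn : 0 < n) (hβ : 0 < β) {C : ℝ}
    (hC : ∀ {W : Set (Fin n → ℝ)} {u : (Fin n → ℝ) → ℝ}, AM W u → Convex ℝ W → ∀ x₀ ∈ W,
      ∀ (p : Fin n → ℝ) (h : ℝ), 0 < h → IsCompact (capSet u x₀ p h W) →
        ∀ M : Matrix (Fin n) (Fin n) ℝ,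
          (∀ i, x₀ + M i ∈ capSet u x₀ p h W ∧ x₀ - M i ∈ capSet u x₀ p h W) →
            ∀ y ∈ capSet u x₀ p h W, capGrad u x₀ p y = 0 → -h ≤ capFun u x₀ p y →
              (hess u y).det * M.det ^ 2 ≤ C * h ^ n)
    (hu : AM W u) (hc : Convex ℝ W) (hcl : ∀ R, IsClosed {x | x ∈ W ∧ u x ≤ R}) (h0 : x₀ ∈ W)
    (hh : 0 < h) (hK : IsCap u x₀ p h β W) {r : ℝ} (hr : 0 < r)
    (hball : Metric.closedBall x₀ r ⊆ capSet u x₀ p h W) {y : Fin n → ℝ} (hy : y ∈ W) :
    (hess u y).det * (r / 2) ^ (2 * n) ≤ C * (2 * (1 + β⁻¹) * (psi0 u x₀ y + h)) ^ n ∧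
    ∀ j, (hess u y).det * ((r / 2) ^ (n - 1) * ((y j - x₀ j) / 2)) ^ 2 ≤
      C * (2 * (1 + β⁻¹) * (psi0 u x₀ y + h)) ^ n := by
  set ψ := psi0 u x₀ y with hψ
  have hψ0 : 0 ≤ ψ := psi0_nonneg hu hc h0 hy
  set H : ℝ := (1 + β⁻¹) * (ψ + h) with hH
  have hH0 : 0 < H := by positivity
  set G := tangentGap u y with hG
  set g := capGrad u x₀ p y with hg
  have hgap : ∀ z, G z = ψ + capFun u x₀ p z - g ⬝ᵥ (z - x₀) := fun z => by
    rw [hg, Mass.capGrad_dot hu hy (z - x₀)]
    simp only [hG, tangentGap, hψ, psi0, capFun]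
    rw [show fderiv ℝ u y (z - x₀) = fderiv ℝ u y (z - y) + fderiv ℝ u y (y - x₀) by
      rw [← map_add]; congr 1; abel]
    ring
  -- the cap lies in the section
  have hKG : ∀ z ∈ capSet u x₀ p h W, G z ≤ H := by
    intro z hz
    have hb := hK.bal z hz
    have h1 := Mass.capFun_tangent (x₀ := x₀) (p := p) hu hc hy hb.1
    rw [← hg, show x₀ - β • (z - x₀) - y = -(β • (z - x₀)) - (y - x₀) by abel, dotProduct_sub,
      dotProduct_neg, dotProduct_smul, smul_eq_mul] at h1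
    have h3 : g ⬝ᵥ (y - x₀) - capFun u x₀ p y = ψ := by
      rw [hg, Mass.capGrad_dot hu hy (y - x₀)]
      simp only [hψ, psi0, capFun]; ring
    have h4 : -(g ⬝ᵥ (z - x₀)) ≤ β⁻¹ * (ψ + h) := by
      rw [inv_mul_eq_div, le_div_iff₀ hβ]
      linarith [hb.2]
    rw [hgap, hH, add_mul, one_mul]
    linarith [hz.2]
  have hGy : G y = 0 := by simp [hG, tangentGap_self]
  have hG0 : G x₀ ≤ H := hKG x₀ ⟨h0, by rw [Mass.capFun_self]; exact hh.le⟩
  -- the cap around the midpoint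
  set c := (1 / 2 : ℝ) • x₀ + (1 / 2 : ℝ) • y with hc'
  have hcW := (gap_midpoint_le hu hc (y := y) h0 hy).1
  set q : Fin n → ℝ := fun i => pd i u y with hq
  have hqd : ∀ d : Fin n → ℝ, q ⬝ᵥ d = fderiv ℝ u y d := fun d => by
    conv_rhs => rw [pi_eq_sum_univ' d]
    simp only [dotProduct, hq, map_sum, map_smul, smul_eq_mul, pd]
    exact sum_congr rfl fun i _ => mul_comm _ _
  have hcap : ∀ z, capFun u c q z = G z - G c := fun z => by
    simp only [capFun, hG, tangentGap, hqd]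
    rw [show fderiv ℝ u y (z - c) = fderiv ℝ u y (z - y) - fderiv ℝ u y (c - y) by
      rw [← map_sub]; congr 1; abel]
    ring
  have hGc : G c ≤ H := by
    have := (gap_midpoint_le hu hc (y := y) h0 hy).2
    rw [← hG, ← hc', hGy] at this
    linarith [gap_nonneg hu.isOpen hc hu.sm hu.pos hy hcW]
  have hGc0 : 0 ≤ G c := gap_nonneg hu.isOpen hc hu.sm hu.pos hy hcW
  set hn' := 2 * H with hhn
  have hset : capSet u c q hn' W = {z | z ∈ W ∧ G z ≤ hn' + G c} := by
    ext z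
    simp only [capSet, hcap, Set.mem_setOf_eq, sub_le_iff_le_add]
  obtain ⟨C', -, hcpt⟩ := exists_sublevel_bound hu.isOpen hc hu.sm hu.pos hcl hy
  have hScpt : IsCompact (capSet u c q hn' W) := by
    rw [hset]
    exact (hcpt _ (by positivity)).1
  have hmem : ∀ z ∈ W, G z ≤ H → z ∈ capSet u c q hn' W := fun z hz hle => by
    rw [hset]
    exact ⟨hz, by linarith⟩
  have hhalf : ∀ d : Fin n → ℝ, ‖d‖ ≤ r →
      c + (1 / 2 : ℝ) • d ∈ capSet u c q hn' W := fun d hd => by
    have hk : x₀ + d ∈ capSet u x₀ p h W :=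
      hball (by simpa [Metric.mem_closedBall, dist_eq_norm] using hd)
    have h1 := gap_midpoint_le hu hc (y := y) hk.1 hy
    rw [← hG, hGy] at h1
    have e : (1 / 2 : ℝ) • (x₀ + d) + (1 / 2 : ℝ) • y = c + (1 / 2 : ℝ) • d := by
      rw [hc']; ext i; simp; ring
    rw [e] at h1
    exact hmem _ h1.1 (by linarith [hKG _ hk, h1.2])
  have hrow : ∀ i, c + (Pi.single i (r / 2) : Fin n → ℝ) ∈ capSet u c q hn' W ∧
      c - (Pi.single i (r / 2) : Fin n → ℝ) ∈ capSet u c q hn' W := by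
    intro i
    have e : (Pi.single i (r / 2) : Fin n → ℝ) = (1 / 2 : ℝ) • Pi.single i r := by
      ext k; by_cases hk : k = i
      · subst hk; simp; ring
      · simp [hk]
    refine ⟨?_, ?_⟩
    · rw [e]; exact hhalf _ (by rw [Pi.norm_single, Real.norm_eq_abs, abs_of_pos hr])
    · rw [e, sub_eq_add_neg, ← smul_neg]
      exact hhalf _ (by rw [norm_neg, Pi.norm_single, Real.norm_eq_abs, abs_of_pos hr])
  have hyS : y ∈ capSet u c q hn' W := hmem y hy (by rw [hGy]; exact hH0.le)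
  have hgy : capGrad u c q y = 0 := funext fun i => by
    rw [Mass.capGrad_eq hu hy]; simp [hq]
  have hlow : -hn' ≤ capFun u c q y := by rw [hcap, hGy]; linarith
  have e2 : hn' = 2 * (1 + β⁻¹) * (ψ + h) := by rw [hhn, hH]; ring
  have key := fun M hM => hC hu hc c hcW q hn' (by positivity) hScpt M hM y hyS hgy hlow
  rw [← e2]
  set D : Matrix (Fin n) (Fin n) ℝ := Matrix.diagonal fun _ => r / 2 with hD
  have hDrow : ∀ i, D i = Pi.single i (r / 2) := fun i => by
    ext k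
    simp [hD, Matrix.diagonal_apply, Pi.single_apply, eq_comm]
  have hDdet : D.det = (r / 2) ^ n := by simp [hD, div_pow]
  refine ⟨?_, fun j => ?_⟩
  · have := key D fun i => by rw [hDrow]; exact hrow i
    rwa [hDdet, ← pow_mul, mul_comm n 2] at this
  · set d : Fin n → ℝ := (1 / 2 : ℝ) • (y - x₀) with hd
    have hM : ∀ i, c + (D.updateRow j d) i ∈ capSet u c q hn' W ∧
        c - (D.updateRow j d) i ∈ capSet u c q hn' W := by
      intro i
      rcases eq_or_ne i j with rfl | hij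
      · rw [Matrix.updateRow_self]
        refine ⟨?_, ?_⟩
        · rw [show c + d = y by rw [hc', hd]; ext k; simp; ring]; exact hyS
        · rw [show c - d = x₀ by rw [hc', hd]; ext k; simp; ring]; exact hmem x₀ h0 hG0
      · rw [Matrix.updateRow_ne hij, hDrow]; exact hrow i
    have hdet : (D.updateRow j d).det = (r / 2) ^ (n - 1) * ((y j - x₀ j) / 2) := by
      set co : Fin n → ℝ := fun k => (2 / r) * d k
      have hsum : d = ∑ k, co k • D k := by
        ext i
        simp [co, hDrow, Finset.sum_apply, Pi.single_apply]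
        field_simp
      rw [hsum, Matrix.det_updateRow_sum, hDdet, smul_eq_mul]
      simp only [co, hd, Pi.smul_apply, Pi.sub_apply, smul_eq_mul]
      rw [show (r / 2) ^ n = (r / 2) ^ (n - 1) * (r / 2) by
        rw [← pow_succ, Nat.sub_add_cancel hn]]
      field_simp
    have := key _ hM
    rwa [hdet] at this

theorem rhoProper {β : ℝ} (hn : 0 < n) (hβ : 0 < β) : RhoProper n β := by
  intro W u hu hc hcl x₀ h0 p h hh hK L
  obtain ⟨C, hC0, hC⟩ := det_lowest_le (n := n) hn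
  set S := {y | y ∈ W ∧ rhoF u x₀ y ≤ L}
  -- a cube inside the cap
  obtain ⟨r, hr, hball⟩ : ∃ r > 0, Metric.closedBall x₀ r ⊆ capSet u x₀ p h W := by
    have hev : ∀ᶠ y in 𝓝 x₀, y ∈ W ∧ capFun u x₀ p y < h := by
      refine (hu.isOpen.eventually_mem h0).and ?_
      refine ((Mass.sm_capFun hu).continuousOn.continuousAt
        (hu.isOpen.mem_nhds h0)).eventually_lt continuousAt_const ?_
      rw [Mass.capFun_self]; exact hh
    obtain ⟨r, hr, hsub⟩ := Metric.nhds_basis_closedBall.mem_iff.1 hev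
    exact ⟨r, hr, fun y hy => ⟨(hsub hy).1, (hsub hy).2.le⟩⟩
  have hrW : Metric.closedBall x₀ r ⊆ W := fun y hy => (hball hy).1
  obtain ⟨δ, hδ, hlb⟩ := exists_psi0_lb hn hu hc h0 hr hrW
  set k := 2 * (1 + β⁻¹) with hk
  have hk0 : 0 < k := by positivity
  set L' := max L 1 with hL'
  have hL0 : 0 < L' := lt_of_lt_of_le one_pos (le_max_right _ _)
  have hdet : ∀ y ∈ S, psi0 u x₀ y ^ (n + 2) ≤ L' ^ (n + 2) * (hess u y).det := by
    intro y hy
    have hψ := psi0_nonneg hu hc h0 hy.1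
    have hd := hu.det_pos hy.1
    have h1 : psi0 u x₀ y ≤ L' * (hess u y).det ^ (1 / ((n : ℝ) + 2)) := by
      have := hy.2.trans (le_max_left L 1)
      rw [rhoF, pInv, Real.rpow_neg hd.le, inv_mul_le_iff₀ (Real.rpow_pos_of_pos hd _)] at this
      linarith
    refine (pow_le_pow_left₀ hψ h1 (n + 2)).trans (le_of_eq ?_)
    rw [mul_pow, ← Real.rpow_natCast ((hess u y).det ^ _) (n + 2), ← Real.rpow_mul hd.le,
      show 1 / ((n : ℝ) + 2) * ((n + 2 : ℕ) : ℝ) = 1 by push_cast; field_simp, Real.rpow_one]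
  -- the bound of `ψ₀`
  set A := L' ^ (n + 2) * C * (2 * k) ^ n / (r / 2) ^ (2 * n) with hA
  have hA0 : 0 ≤ A := by positivity
  set Ψ := max h (A + 1) with hΨ
  have hψb : ∀ y ∈ S, psi0 u x₀ y ≤ Ψ := by
    intro y hy
    by_contra hlt
    have hbig := not_le.1 hlt
    have hh' : h ≤ psi0 u x₀ y := ((le_max_left _ _).trans_lt hbig).le
    have hA' : A + 1 < psi0 u x₀ y := (le_max_right _ _).trans_lt hbig
    have hψpos : 0 < psi0 u x₀ y := hh.trans_le hh'
    have h1 := (det_le hn hβ hC hu hc hcl h0 hh hK hr hball hy.1).1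
    have h2 : (k * (psi0 u x₀ y + h)) ^ n ≤ (2 * k) ^ n * psi0 u x₀ y ^ n := by
      rw [← mul_pow]
      refine pow_le_pow_left₀ (by positivity) ?_ n
      nlinarith [hk0.le]
    have h3 : psi0 u x₀ y ^ (n + 2) * (r / 2) ^ (2 * n) ≤
        L' ^ (n + 2) * C * (2 * k) ^ n * psi0 u x₀ y ^ n := by
      calc psi0 u x₀ y ^ (n + 2) * (r / 2) ^ (2 * n)
          ≤ L' ^ (n + 2) * (hess u y).det * (r / 2) ^ (2 * n) :=
            mul_le_mul_of_nonneg_right (hdet y hy) (by positivity)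
        _ = L' ^ (n + 2) * ((hess u y).det * (r / 2) ^ (2 * n)) := by ring
        _ ≤ L' ^ (n + 2) * (C * ((2 * k) ^ n * psi0 u x₀ y ^ n)) :=
            mul_le_mul_of_nonneg_left (h1.trans (mul_le_mul_of_nonneg_left h2 hC0)) (by positivity)
        _ = _ := by ring
    have h4 : psi0 u x₀ y ^ 2 ≤ A := by
      rw [hA, le_div_iff₀ (by positivity)]
      refine le_of_mul_le_mul_left ?_ (pow_pos hψpos n)
      calc psi0 u x₀ y ^ n * (psi0 u x₀ y ^ 2 * (r / 2) ^ (2 * n))
          = psi0 u x₀ y ^ (n + 2) * (r / 2) ^ (2 * n) := by ring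
        _ ≤ _ := h3
        _ = _ := by ring
    nlinarith
  -- the bound of `y`
  set B := r + Real.sqrt (4 * (L' ^ (n + 2) * (C * (k * (Ψ + h)) ^ n)) /
    (δ ^ (n + 2) * (r / 2) ^ (2 * (n - 1)))) with hB
  have hB0 : 0 ≤ B := by positivity
  have hyb : ∀ y ∈ S, ‖y - x₀‖ ≤ B := by
    intro y hy
    rcases le_or_gt ‖y - x₀‖ r with hle | hgt
    · exact hle.trans (le_add_of_nonneg_right (Real.sqrt_nonneg _))
    · refine (pi_norm_le_iff_of_nonneg hB0).2 fun j => ?_
      refine le_trans ?_ (le_add_of_nonneg_left hr.le)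
      rw [Real.norm_eq_abs, Pi.sub_apply]
      refine Real.abs_le_sqrt ?_
      rw [le_div_iff₀ (by positivity)]
      have hψδ := hlb y hy.1 hgt
      have h1 := (det_le hn hβ hC hu hc hcl h0 hh hK hr hball hy.1).2 j
      have h2 : (k * (psi0 u x₀ y + h)) ^ n ≤ (k * (Ψ + h)) ^ n :=
        pow_le_pow_left₀ (by have := psi0_nonneg hu hc h0 hy.1; positivity)
          (mul_le_mul_of_nonneg_left (by linarith [hψb y hy]) hk0.le) n
      calc (y j - x₀ j) ^ 2 * (δ ^ (n + 2) * (r / 2) ^ (2 * (n - 1)))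
          ≤ (y j - x₀ j) ^ 2 * (psi0 u x₀ y ^ (n + 2) * (r / 2) ^ (2 * (n - 1))) := by gcongr
        _ ≤ (y j - x₀ j) ^ 2 * (L' ^ (n + 2) * (hess u y).det * (r / 2) ^ (2 * (n - 1))) :=
            mul_le_mul_of_nonneg_left
              (mul_le_mul_of_nonneg_right (hdet y hy) (by positivity)) (sq_nonneg _)
        _ = 4 * (L' ^ (n + 2) *
              ((hess u y).det * ((r / 2) ^ (n - 1) * ((y j - x₀ j) / 2)) ^ 2)) := by ring
        _ ≤ _ := by
            refine mul_le_mul_of_nonneg_left (mul_le_mul_of_nonneg_left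
              (h1.trans (mul_le_mul_of_nonneg_left h2 hC0)) (by positivity)) (by norm_num)
  -- the bound of `u`
  set T := (max 1 β⁻¹) * (Ψ + h) / r with hT
  set R := u x₀ + ((n : ℝ) * (T * B) + ‖fun i => p i‖ * ((n : ℝ) * B)) with hR
  have hub : ∀ y ∈ S, u y ≤ R := by
    intro y hy
    set g := capGrad u x₀ p y with hg
    have hψ := hψb y hy
    have hgi : ∀ i, |g i| ≤ T := by
      intro i
      have hplus : ∀ d : Fin n → ℝ, ‖d‖ ≤ r → g ⬝ᵥ d ≤ Ψ + h := fun d hd => by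
        have hk : x₀ + d ∈ capSet u x₀ p h W :=
          hball (by simpa [Metric.mem_closedBall, dist_eq_norm] using hd)
        have h1 := Mass.capFun_tangent (x₀ := x₀) (p := p) hu hc hy.1 hk.1
        rw [← hg, show x₀ + d - y = d - (y - x₀) by abel, dotProduct_sub] at h1
        have h3 : g ⬝ᵥ (y - x₀) - capFun u x₀ p y = psi0 u x₀ y := by
          rw [hg, Mass.capGrad_dot hu hy.1 (y - x₀)]
          simp only [psi0, capFun]; ring
        linarith [hk.2]
      have hT' : Ψ + h ≤ T * r := by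
        rw [hT, div_mul_cancel₀ _ hr.ne']
        exact le_mul_of_one_le_left (by linarith [le_max_left h (A + 1)]) (le_max_left _ _)
      rw [abs_le]
      have h1 := hplus (Pi.single i r) (by rw [Pi.norm_single, Real.norm_eq_abs, abs_of_pos hr])
      have h2 := hplus (Pi.single i (-r))
        (by rw [Pi.norm_single, Real.norm_eq_abs, abs_neg, abs_of_pos hr])
      rw [dotProduct_single] at h1 h2
      constructor
      · nlinarith
      · nlinarith
    have h3 : g ⬝ᵥ (y - x₀) - capFun u x₀ p y = psi0 u x₀ y := by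
      rw [hg, Mass.capGrad_dot hu hy.1 (y - x₀)]
      simp only [psi0, capFun]; ring
    have h4 : |g ⬝ᵥ (y - x₀)| ≤ (n : ℝ) * (T * B) :=
      abs_dotProduct_le hgi (hyb y hy) (le_trans (abs_nonneg _) (hgi ⟨0, hn⟩))
    have h5 : |p ⬝ᵥ (y - x₀)| ≤ (n : ℝ) * (‖fun i => p i‖ * B) :=
      abs_dotProduct_le (fun i => (Real.norm_eq_abs (p i)) ▸ norm_le_pi_norm _ i) (hyb y hy)
        (norm_nonneg _)
    have h6 := psi0_nonneg hu hc h0 hy.1
    simp only [capFun] at h3
    linarith [le_abs_self (g ⬝ᵥ (y - x₀)), le_abs_self (p ⬝ᵥ (y - x₀))]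
  set T' := {y | y ∈ W ∧ u y ≤ R} ∩ Metric.closedBall x₀ B
  have hT'c : IsCompact T' := (isCompact_closedBall x₀ B).inter_left (hcl R)
  have hST : S = T' ∩ rhoF u x₀ ⁻¹' Set.Iic L := by
    ext y
    refine ⟨fun hy => ⟨⟨⟨hy.1, hub y hy⟩, ?_⟩, hy.2⟩, fun hy => ⟨hy.1.1.1, hy.2⟩⟩
    rw [Metric.mem_closedBall, dist_eq_norm]
    exact hyb y hy
  show IsCompact S
  rw [hST]
  exact hT'c.of_isClosed_subset (((continuousOn_rhoF hu).mono fun y hy => hy.1.1
    ).preimage_isClosed_of_isClosed hT'c.isClosed isClosed_Iic) Set.inter_subset_left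

theorem rhoProperGoal (n : ℕ) : RhoProperGoal n := fun _ hn hβ => rhoProper hn hβ

end

end Vale.Agent.P252.General.Rho
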