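import Vale.Agent.P252.Rigidity.General.Rho.Assembly
import Vale.Agent.P252.Rigidity.General.Rho.Proper
import Vale.Agent.P252.Rigidity.General.Rho.Mass
import Vale.Agent.P252.Rigidity.General.Cap
import Vale.Agent.P252.Rigidity.General.Volume

/-!
# Rigidity from a weighted certificate alone
-/

namespace Vale.Agent.P252.General.Rho

noncomputable section

/-- A weighted flux bound of degree above `n` gives rigidity. -/
theorem rigid_of_rhoFlux {n a : ℕ} {cc N b q deg : ℝ} [NeZero n] (hdn : (n : ℝ) < deg)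
    (ha : deg / 2 < (a : ℝ)) (hcc : 1 + (capBeta n)⁻¹ ≤ cc) (hq0 : 0 < q) (hq : q ≤ 1 / 2)
    (hN1 : (n : ℝ) * (1 - q) - q < N) (hN0 : 0 ≤ N) (hb : (n : ℝ) * q < b)
    (hNb : (n : ℝ) < N + b) (hF : RhoFlux n a cc N b q deg) : Rigid n := by
  have hn : 0 < n := Nat.pos_of_ne_zero (NeZero.ne n)
  have hβ := capBeta_pos n
  have hb0 : 0 ≤ b := le_trans (mul_nonneg n.cast_nonneg hq0.le) hb.le
  intro W u hu hne hc hcomp
  exact rhoAssembly n a (capBeta n) cc N b q deg hn hdn ha hβ hcc hN0 hb0 hq0 hq hF (capExists n)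
    (volumeBound hn hβ) (rhoProper hn hβ) (rhoMass hβ hcc hq0 (by linarith) hN1 hN0 hb hNb) hu hne
    hc hcomp

end

end Vale.Agent.P252.General.Rho
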