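import Vale.Agent.P252.Rigidity.General.Rho.Basic
import Vale.Agent.P252.Rigidity.General.Volume

/-!
# The Hessian determinant at the lowest point of a compact cap

If the rows `mᵢ` and their opposites lie in a compact cap centred at `x₀` and the cap function
attains its minimum `≥ -h` at `y`, then `det D²u(y) det(m)² ≤ C hⁿ`.
-/

namespace Vale.Agent.P252.General.Rho

open scoped ContDiff Matrix Topology
open MeasureTheory Filter Finset Rigidity
open Three (AM logDet)
open Mass Volume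

noncomputable section

variable {n : ℕ}

theorem det_lowest_le (hn : 0 < n) : ∃ C : ℝ, 0 ≤ C ∧
    ∀ {W : Set (Fin n → ℝ)} {u : (Fin n → ℝ) → ℝ}, AM W u → Convex ℝ W → ∀ x₀ ∈ W,
      ∀ (p : Fin n → ℝ) (h : ℝ), 0 < h → IsCompact (capSet u x₀ p h W) →
        ∀ M : Matrix (Fin n) (Fin n) ℝ,
          (∀ i, x₀ + M i ∈ capSet u x₀ p h W ∧ x₀ - M i ∈ capSet u x₀ p h W) →
            ∀ y ∈ capSet u x₀ p h W, capGrad u x₀ p y = 0 → -h ≤ capFun u x₀ p y →
              (hess u y).det * M.det ^ 2 ≤ C * h ^ n := by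
  set B2 : ℝ := (n : ℝ) + 1 with hB2
  set A : ℝ := 1 / (256 * ((n : ℝ) + 2) * B2) with hA
  set K : ℝ := 9 + 5 * ((n : ℝ) + 1) * (n + 2) with hKdef
  set T₀ : ℝ := 2 * K / A * (((n : ℝ) + 2) * K * 2) with hT₀
  have hn1 : (1 : ℝ) ≤ n := by exact_mod_cast hn
  have hB1 : 1 ≤ B2 := by linarith
  have hA0 : 0 < A := by positivity
  have hK0 : 0 < K := by positivity
  have hAB : A / 2 * B2 ≤ 1 := by
    rw [show A / 2 * B2 = 1 / (512 * ((n : ℝ) + 2)) by rw [hA]; field_simp; ring,
      div_le_one (by positivity)]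
    linarith
  refine ⟨2 ^ n * (2 ^ 4 * Real.exp 1 * T₀ ^ n), by positivity, ?_⟩
  intro W u hu hc x₀ hx₀ p h hh hcpt M hM y₀ hy₀ hg0 hlow
  set S := capSet u x₀ p h W with hS
  have hSW : S ⊆ W := fun y hy => hy.1
  have hy₀W := hSW hy₀
  set m : Fin n → Fin n → ℝ := fun i => M i with hm
  have hψ : ∀ z ∈ W, 1 ≤ psiF u x₀ p h z := fun z hz => Mass.one_le_psiF hu hc hh hz hx₀
  -- the minimum of the cap function
  have hmin : ∀ z ∈ W, capFun u x₀ p y₀ ≤ capFun u x₀ p z := fun z hz => by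
    have := capFun_tangent (x₀ := x₀) (p := p) hu hc hy₀W hz
    rw [hg0, zero_dotProduct, add_zero] at this
    exact this
  have hηE : ∀ z ∈ W, etaF u x₀ p h z ≤ 2 := fun z hz => by
    have : -1 ≤ capFun u x₀ p z / h := by
      rw [le_div_iff₀ hh]; linarith [hmin z hz]
    simp only [etaF]
    linarith
  have hη₀ : 1 ≤ etaF u x₀ p h y₀ := by
    have h1 := hmin x₀ hx₀
    rw [show capFun u x₀ p x₀ = 0 from Mass.capFun_self u x₀ p] at h1
    have : capFun u x₀ p y₀ / h ≤ 0 := div_nonpos_of_nonpos_of_nonneg h1 hh.le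
    simp only [etaF]
    linarith
  have hψ₀ : psiF u x₀ p h y₀ ≤ 2 := by
    have : -1 ≤ capFun u x₀ p y₀ / h := by rw [le_div_iff₀ hh]; linarith
    simp only [psiF, hg0, dotProduct_zero, zero_sub, neg_div]
    linarith
  have hk : ∀ z ∈ W, ∀ i, |kF u x₀ p h m i z| ≤ 1 := fun z hz i => by
    have hψ' : 0 < psiF u x₀ p h z := lt_of_lt_of_le one_pos (hψ z hz)
    have hq := capGrad_mem (p := p) hu hc hh hz le_rfl hψ'
    rw [Set.mem_smul_set_iff_inv_smul_mem₀ (mul_pos hψ' hh).ne'] at hq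
    have e : kF u x₀ p h m i z =
        ((psiF u x₀ p h z * h)⁻¹ • capGrad u x₀ p z) ⬝ᵥ m i := by
      simp only [kF, rec']
      rw [mul_comm h, smul_dotProduct, smul_eq_mul]
      congr 1
      exact sum_congr rfl fun j _ => mul_comm _ _
    rw [e]
    have h1 := hq (m i) ⟨x₀ + M i, (hM i).1, by simp [hm]⟩
    have h2 := hq (-(m i)) ⟨x₀ - M i, (hM i).2, by simp [hm]⟩
    rw [dotProduct_neg] at h2
    rw [abs_le]
    constructor <;> linarith
  -- the test function
  set F : (Fin n → ℝ) → ℝ := fun z => ∑ i, kF u x₀ p h m i z * kF u x₀ p h m i z with hF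
  have hFB : ∀ z ∈ W, F z ≤ B2 := fun z hz => by
    refine ((sum_le_card_nsmul univ _ 1 fun i _ => ?_).trans (le_of_eq (by simp))).trans
      (show (n : ℝ) ≤ B2 by rw [hB2]; linarith)
    have := mul_self_le_mul_self (abs_nonneg _) (hk z hz i)
    rw [abs_mul_abs_self, one_mul] at this
    exact this
  set Φ : (Fin n → ℝ) → ℝ := fun z => max (etaF u x₀ p h z) 0 ^ 4 * (hess u z).det *
    Real.exp (A / 2 * F z) / psiF u x₀ p h z ^ n with hΦ
  have hkc : ∀ i, ContinuousOn (kF u x₀ p h m i) W := fun i =>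
    ((ContinuousOn.inv₀ (continuousOn_const.mul (sm_psiF hu).continuousOn) fun z hz =>
        (mul_pos hh (lt_of_lt_of_le one_pos (hψ z hz))).ne').mul
      (continuousOn_finsetSum _ fun j _ => continuousOn_const.mul (sm_capGrad hu j).continuousOn))
  have hΦc : ContinuousOn Φ W :=
    ((((((sm_etaF hu).continuousOn.sup continuousOn_const).pow 4).mul
      (sm_det (msm_hess hu.isOpen hu.sm)).continuousOn).mul
        (Real.continuous_exp.comp_continuousOn (continuousOn_const.mul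
          (continuousOn_finsetSum _ fun i _ => (hkc i).mul (hkc i))))).div
      ((sm_psiF hu).continuousOn.pow n) fun z hz =>
        (pow_pos (lt_of_lt_of_le one_pos (hψ z hz)) n).ne')
  obtain ⟨y, hyS, hmax⟩ := hcpt.exists_isMaxOn ⟨y₀, hy₀⟩ (hΦc.mono hSW)
  have hyW := hSW hyS
  have hd0 := hu.det_pos hy₀W
  have hΦ0 : (hess u y₀).det / 2 ^ n ≤ Φ y₀ := by
    simp only [Φ, max_eq_left (zero_le_one.trans hη₀)]
    refine div_le_div₀ (by positivity) ?_ (pow_pos (lt_of_lt_of_le one_pos (hψ y₀ hy₀W)) n)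
      (pow_le_pow_left₀ (zero_le_one.trans (hψ y₀ hy₀W)) hψ₀ n)
    have e0 : 0 ≤ F y₀ := sum_nonneg fun i _ => mul_self_nonneg _
    calc (hess u y₀).det = 1 * (hess u y₀).det * 1 := by ring
      _ ≤ etaF u x₀ p h y₀ ^ 4 * (hess u y₀).det * Real.exp (A / 2 * F y₀) :=
        mul_le_mul (mul_le_mul_of_nonneg_right (one_le_pow₀ hη₀) hd0.le)
          (Real.one_le_exp (by positivity)) zero_le_one (by positivity)
  have hle : Φ y₀ ≤ Φ y := hmax hy₀
  have hηy : 0 < etaF u x₀ p h y := by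
    by_contra hne
    have : Φ y = 0 := by simp [Φ, max_eq_right (not_lt.1 hne)]
    have : 0 < (hess u y₀).det / 2 ^ n := by positivity
    linarith
  -- the maximum principle
  set V : Set (Fin n → ℝ) := W ∩ etaF u x₀ p h ⁻¹' Set.Ioi 0 with hV
  have hVo : IsOpen V := (sm_etaF hu).continuousOn.isOpen_inter_preimage hu.isOpen isOpen_Ioi
  have hVS : V ⊆ S := fun z hz => ⟨hz.1, by
    have : capFun u x₀ p z / h < 1 := by
      have := hz.2
      simp only [Set.mem_preimage, Set.mem_Ioi, etaF] at this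
      linarith
    exact ((div_lt_one hh).1 this).le⟩
  have elog : ∀ z ∈ V, testF u x₀ p h m A z = Real.log (Φ z) := fun z hz => by
    have h1 : 0 < etaF u x₀ p h z := hz.2
    have h2 := hu.det_pos hz.1
    have h3 : 0 < psiF u x₀ p h z := lt_of_lt_of_le one_pos (hψ z hz.1)
    simp only [Φ, max_eq_left h1.le]
    rw [Real.log_div (by positivity) (by positivity), Real.log_mul (by positivity) (by positivity),
      Real.log_mul (by positivity) (by positivity), Real.log_pow, Real.log_pow, Real.log_exp]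
    simp only [testF, logDet, hF]
    push_cast
    ring
  have hloc : IsLocalMax (testF u x₀ p h m A) y := by
    filter_upwards [hVo.mem_nhds ⟨hyW, hηy⟩] with z hz
    rw [elog z hz, elog y ⟨hyW, hηy⟩]
    refine Real.log_le_log ?_ (hmax (hVS hz))
    have h1 : 0 < etaF u x₀ p h z := hz.2
    have h2 := hu.det_pos hz.1
    have h3 : 0 < psiF u x₀ p h z := lt_of_lt_of_le one_pos (hψ z hz.1)
    simp only [Φ, max_eq_left h1.le]
    positivity
  have key := max_point_ineq (am_mono hu hVo Set.inter_subset_left) hh (fun z hz => hz.2)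
    (fun z hz => lt_of_lt_of_le one_pos (hψ z hz.1)) hn hB1 hA (y := y) ⟨hyW, hηy⟩
    (hFB y hyW) hloc
  have hψy := lt_of_lt_of_le one_pos (hψ y hyW)
  have hH := (hu.pos y hyW).posSemidef
  set Q : ℝ := ∑ i, m i ⬝ᵥ hessVec u (m i) y with hQ
  have hQ0 : 0 ≤ Q := sum_nonneg fun i _ => by
    simpa [hessVec] using hH.dotProduct_mulVec_nonneg (m i)
  simp only [rec', ← hKdef, ← hQ] at key
  have hψE : psiF u x₀ p h y ≤ ((n : ℝ) + 2) * K * 2 := by
    have h1 : (n : ℝ) / ((n : ℝ) + 2) * (h * etaF u x₀ p h y)⁻¹ ≤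
        K * (h * psiF u x₀ p h y)⁻¹ := by
      refine le_trans (le_add_of_nonneg_right ?_) key
      positivity
    have h2 : (n : ℝ) * psiF u x₀ p h y ≤ ((n : ℝ) + 2) * K * etaF u x₀ p h y := by
      field_simp at h1
      linarith
    calc psiF u x₀ p h y ≤ n * psiF u x₀ p h y := le_mul_of_one_le_left hψy.le hn1
      _ ≤ _ := h2.trans (mul_le_mul_of_nonneg_left (hηE y hyW) (by positivity))
  have hQb : Q ≤ T₀ * h := by
    have h1 : A / 2 * (h * psiF u x₀ p h y)⁻¹ ^ 2 * Q ≤ K * (h * psiF u x₀ p h y)⁻¹ := by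
      refine le_trans (le_add_of_nonneg_left ?_) key
      positivity
    have h2 : Q ≤ 2 * K / A * (h * psiF u x₀ p h y) := by
      field_simp at h1 ⊢
      linarith
    refine h2.trans (le_of_le_of_eq (mul_le_mul_of_nonneg_left
      (mul_le_mul_of_nonneg_left hψE hh.le) (by positivity)) ?_)
    rw [hT₀]; ring
  have hMd : M.det ^ 2 * (hess u y).det ≤ (T₀ * h) ^ n :=
    (det_sq_mul_le hH).trans (pow_le_pow_left₀ hQ0 hQb n)
  have hΦy : Φ y ≤ 2 ^ 4 * Real.exp 1 * (hess u y).det := by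
    have hdy := hu.det_pos hyW
    simp only [Φ, max_eq_left hηy.le]
    refine (div_le_self (by positivity) (one_le_pow₀ (hψ y hyW))).trans ?_
    have e1 : Real.exp (A / 2 * F y) ≤ Real.exp 1 := Real.exp_le_exp.2
      ((mul_le_mul_of_nonneg_left (hFB y hyW) (by positivity)).trans hAB)
    calc etaF u x₀ p h y ^ 4 * (hess u y).det * Real.exp (A / 2 * F y)
        ≤ 2 ^ 4 * (hess u y).det * Real.exp 1 := by
          gcongr
          exact hηE y hyW
      _ = _ := by ring
  have hd : (hess u y₀).det ≤ 2 ^ n * (2 ^ 4 * Real.exp 1 * (hess u y).det) := by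
    rw [← div_le_iff₀' (by positivity)]
    exact hΦ0.trans (hle.trans hΦy)
  calc (hess u y₀).det * M.det ^ 2
      ≤ 2 ^ n * (2 ^ 4 * Real.exp 1 * (hess u y).det) * M.det ^ 2 :=
        mul_le_mul_of_nonneg_right hd (sq_nonneg _)
    _ = 2 ^ n * (2 ^ 4 * Real.exp 1) * (M.det ^ 2 * (hess u y).det) := by ring
    _ ≤ 2 ^ n * (2 ^ 4 * Real.exp 1) * (T₀ * h) ^ n :=
        mul_le_mul_of_nonneg_left hMd (by positivity)
    _ = _ := by rw [mul_pow]; ring

end

end Vale.Agent.P252.General.Rho
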