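import Vale.Agent.P252.Rigidity.General.Spec

/-!
# The cut-off by the affine support function, times a log-convex weight

`ψ₀ = (y - x₀)·Du - (u - u x₀)` does not depend on a slope; `P = (det D²u)^(-1/(n+2))` and
`ρ = P ψ₀` is the affine support function based at `x₀`.  The flux carries the cut-off
`(1 - ρ/L)^a` and the weight `(c + ũ/h)^(-N) ψ^(-b) (det D²u)^q`, which is integrable on the whole
domain; first `L → ∞`, then `h → ∞`.

* `RhoFlux`: what a pointwise certificate has to give.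
* `RhoProper`: the sublevels of `ρ` are compact.
* `RhoMass`: the weight has mass `O(h^(nq) |cap|^(1-2q))`.
-/

namespace Vale.Agent.P252.General.Rho

open scoped ContDiff Matrix
open MeasureTheory Finset

noncomputable section

variable {n : ℕ} (u : (Fin n → ℝ) → ℝ) (x₀ p : Fin n → ℝ) (h : ℝ)

/-- The Legendre gap `u x₀ - u y - Du(y)(x₀ - y)`. -/
def psi0 (y : Fin n → ℝ) : ℝ := fderiv ℝ u y (y - x₀) - (u y - u x₀)

/-- `(det D²u)^(-1/(n+2))`. -/
def pInv (y : Fin n → ℝ) : ℝ := (hess u y).det ^ (-(1 / ((n : ℝ) + 2)))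

/-- The affine support function based at `x₀`. -/
def rhoF (y : Fin n → ℝ) : ℝ := pInv u y * psi0 u x₀ y

/-- The log-convex weight. -/
def weight (cc N b q : ℝ) (y : Fin n → ℝ) : ℝ :=
  (cc + capFun u x₀ p y / h) ^ (-N) * psiF u x₀ p h y ^ (-b) * (hess u y).det ^ q

/-- A `C¹` field on the domain, zero where `L ≤ ρ`, with the weighted divergence inequality where
`ρ < L`; the constants depend only on the parameters. -/
def RhoFlux (n a : ℕ) (cc N b q deg : ℝ) : Prop :=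
  ∃ ε C : ℝ, 0 < ε ∧ 0 ≤ C ∧
    ∀ {W : Set (Fin n → ℝ)} {u : (Fin n → ℝ) → ℝ}, Three.AM W u → Convex ℝ W →
      ∀ x₀ ∈ W, ∀ (p : Fin n → ℝ) (h : ℝ), 0 < h →
        (∀ y ∈ W, 1 ≤ cc + capFun u x₀ p y / h) → ∀ L : ℝ, 0 < L →
          ∃ Φ : Fin n → (Fin n → ℝ) → ℝ, (∀ i, ContDiffOn ℝ 1 (Φ i) W) ∧
            (∀ i, ∀ y ∈ W, L ≤ rhoF u x₀ y → Φ i y = 0) ∧
            ∀ y ∈ W, rhoF u x₀ y < L →
              (1 - rhoF u x₀ y / L) ^ a * weight u x₀ p h cc N b q y *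
                  (ε * Three.qQ u y ^ (deg / 2) -
                    C * (pInv u y / (L - rhoF u x₀ y) + h⁻¹) ^ (deg / 2)) ≤
                ∑ i, pd i (Φ i) y

/-- The sublevels of the affine support function are compact. -/
def RhoProper (n : ℕ) (β : ℝ) : Prop :=
  ∀ {W : Set (Fin n → ℝ)} {u : (Fin n → ℝ) → ℝ}, Three.AM W u → Convex ℝ W →
    (∀ R : ℝ, IsClosed {y | y ∈ W ∧ u y ≤ R}) → ∀ x₀ ∈ W, ∀ (p : Fin n → ℝ) (h : ℝ), 0 < h →
      IsCap u x₀ p h β W → ∀ L : ℝ, IsCompact {y | y ∈ W ∧ rhoF u x₀ y ≤ L}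

/-- The mass of the weight on the whole domain. -/
def RhoMass (n : ℕ) (β cc N b q : ℝ) : Prop :=
  ∃ C : ℝ, 0 ≤ C ∧ ∀ {W : Set (Fin n → ℝ)} {u : (Fin n → ℝ) → ℝ}, Three.AM W u → Convex ℝ W →
    ∀ x₀ ∈ W, ∀ (p : Fin n → ℝ) (h : ℝ), 0 < h → IsCap u x₀ p h β W →
      IntegrableOn (weight u x₀ p h cc N b q) W ∧
        ∫ y in W, weight u x₀ p h cc N b q y ≤
          C * h ^ ((n : ℝ) * q) * (volume (capSet u x₀ p h W)).toReal ^ (1 - 2 * q)

/-- The assembly: the flux, properness and the mass give rigidity for `deg > n`. -/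
def RhoAssemblyGoal (n : ℕ) : Prop :=
  ∀ (a : ℕ) (β cc N b q deg : ℝ), 0 < n → (n : ℝ) < deg → deg / 2 < (a : ℝ) → 0 < β →
    1 + β⁻¹ ≤ cc → 0 ≤ N → 0 ≤ b → 0 < q → q ≤ 1 / 2 → RhoFlux n a cc N b q deg →
      CapExists n β → VolumeBound n β → RhoProper n β → RhoMass n β cc N b q → Rigid n

/-- The goal of the properness module. -/
def RhoProperGoal (n : ℕ) : Prop := ∀ β : ℝ, 0 < n → 0 < β → RhoProper n β

/-- The goal of the mass module. -/
def RhoMassGoal (n : ℕ) : Prop :=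
  ∀ β cc N b q : ℝ, 0 < n → 0 < β → 1 + β⁻¹ ≤ cc → 0 < q → q ≤ 1 →
    (n : ℝ) * (1 - q) - q < N → 0 ≤ N → (n : ℝ) * q < b → (n : ℝ) < N + b →
      RhoMass n β cc N b q

end

end Vale.Agent.P252.General.Rho
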